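import Vale.Agent.P063.Cube

/-!
# The inequality for one band and one coordinate set
-/

set_option linter.unusedSectionVars false

namespace Vale.Agent.P063

open Finset

variable {ι : Type} [Fintype ι] [DecidableEq ι]

/-- The Fourier mass of the sets in `B` with trace `U` on `J`. -/
noncomputable def mass (F : (ι → Bool) → ℝ) (B : Finset (Finset ι)) (J U : Finset ι) : ℝ :=
  ∑ S ∈ B.filter (fun S => S ∩ J = U), coef F S ^ 2

/-- The part with trace `U` of the projection on `B`, as a function off `J`. -/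
noncomputable def trPart (F : (ι → Bool) → ℝ) (B : Finset (Finset ι)) (J U : Finset ι)
    (x : ι → Bool) : ℝ :=
  ∑ S ∈ B.filter (fun S => S ∩ J = U), coef F S * chi (S \ J) x

/-- The restriction of `F` to the coordinates in `J`. -/
def slice (F : (ι → Bool) → ℝ) (J : Finset ι) (x y : ι → Bool) : ℝ :=
  F fun i => if i ∈ J then y i else x i

lemma sum_coef_sq_of_bool {F : (ι → Bool) → ℝ} (hF : ∀ x, F x = 1 ∨ F x = -1) :
    ∑ S, coef F S ^ 2 = 1 := by
  rw [← parseval]
  have : (fun x => F x ^ 2) = fun _ : ι → Bool => (1:ℝ) := by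
    funext x
    rcases hF x with h | h <;> simp [h]
  rw [this, avg_const]

lemma eq_of_trace_eq {S T J : Finset ι} (h1 : S ∩ J = T ∩ J) (h2 : S \ J = T \ J) : S = T := by
  rw [← sdiff_union_inter S J, h1, h2, sdiff_union_inter]

lemma avg_trPart_mul (F : (ι → Bool) → ℝ) (B B' : Finset (Finset ι)) (J U : Finset ι)
    (hB : B ⊆ B') :
    avg (fun x => trPart F B J U x * trPart F B' J U x) = mass F B J U := by
  simp only [trPart, sum_mul]
  rw [avg_sum]
  simp only [mul_sum]
  refine sum_congr rfl fun S hS => ?_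
  rw [avg_sum]
  have hS' : S ∈ B'.filter (fun S => S ∩ J = U) := by
    rw [mem_filter] at hS ⊢
    exact ⟨hB hS.1, hS.2⟩
  rw [sum_eq_single_of_mem S hS']
  · have : (fun x => coef F S * chi (S \ J) x * (coef F S * chi (S \ J) x)) =
        fun _ : ι → Bool => coef F S ^ 2 := by
      funext x
      linear_combination coef F S ^ 2 * chi_sq (S \ J) x
    rw [this, avg_const]
  · intro T hT hne
    have e : (fun x => coef F S * chi (S \ J) x * (coef F T * chi (T \ J) x)) =
        fun x => coef F S * coef F T * (chi (S \ J) x * chi (T \ J) x) := by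
      funext x; ring
    rw [e, avg_smul, avg_chi_mul, if_neg, mul_zero]
    exact fun h => hne (eq_of_trace_eq ((mem_filter.mp hT).2.trans (mem_filter.mp hS).2.symm) h.symm)

lemma avg_trPart_sq (F : (ι → Bool) → ℝ) (B : Finset (Finset ι)) (J U : Finset ι) :
    avg (fun x => trPart F B J U x ^ 2) = mass F B J U := by
  simp only [sq]
  exact avg_trPart_mul F B B J U subset_rfl

lemma avg_trPart_four_le (F : (ι → Bool) → ℝ) (B : Finset (Finset ι)) (J U : Finset ι) (k : ℕ)
    (hk : ∀ S ∈ B, S.card ≤ k) :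
    avg (fun x => trPart F B J U x ^ 4) ≤ 9 ^ k * mass F B J U ^ 2 := by
  set Bt := B.filter (fun S => S ∩ J = U) with hBt
  have hinj : Set.InjOn (fun S : Finset ι => S \ J) Bt := by
    intro S hS T hT h
    rw [hBt, mem_coe, mem_filter] at hS hT
    exact eq_of_trace_eq (hS.2.trans hT.2.symm) h
  have hb := bonami univ (Bt.image fun S => S \ J) (fun T => coef F (T ∪ U)) k
    (fun S _ => subset_univ S) fun S hS => by
      obtain ⟨T, hT, rfl⟩ := mem_image.mp hS
      exact (card_le_card sdiff_subset).trans (hk T (mem_filter.mp hT).1)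
  have hre : ∀ S ∈ Bt, S \ J ∪ U = S := fun S hS => by
    rw [← (mem_filter.mp hS).2, sdiff_union_inter]
  have e1 : comb (Bt.image fun S => S \ J) (fun T => coef F (T ∪ U)) = trPart F B J U := by
    funext x
    rw [comb, sum_image hinj]
    exact sum_congr rfl fun S hS => by rw [hre S hS]
  have e2 : ∑ T ∈ Bt.image (fun S => S \ J), coef F (T ∪ U) ^ 2 = mass F B J U := by
    rw [sum_image hinj]
    exact sum_congr rfl fun S hS => by rw [hre S hS]
  rwa [e1, e2] at hb

lemma coef_slice (F : (ι → Bool) → ℝ) (J U : Finset ι) (x : ι → Bool) :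
    coef (slice F J x) U = trPart F univ J U x := by
  have e : ∀ y, slice F J x y * chi U y =
      ∑ S, coef F S * chi (S \ J) x * (chi (S ∩ J) y * chi U y) := by
    intro y
    rw [slice, expansion F, sum_mul]
    refine sum_congr rfl fun S _ => ?_
    have hs : chi S (fun i => if i ∈ J then y i else x i) = chi (S \ J) x * chi (S ∩ J) y := by
      conv_lhs => rw [← sdiff_union_inter S J, chi_union (disjoint_sdiff_inter S J)]
      congr 1
      · exact chi_congr fun i hi => if_neg (mem_sdiff.mp hi).2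
      · exact chi_congr fun i hi => if_pos (mem_inter.mp hi).2
    rw [hs]; ring
  simp only [coef] at e ⊢
  simp only [e]
  rw [avg_sum, trPart, sum_filter]
  refine sum_congr rfl fun S _ => ?_
  rw [avg_smul, avg_chi_mul]
  split_ifs <;> simp [coef]

lemma avg_sum_mul_le {κ : Type*} (s : (ι → Bool) → Finset κ) (a b : κ → (ι → Bool) → ℝ) :
    avg (fun x => ∑ U ∈ s x, a U x * b U x) ≤
      Real.sqrt (avg fun x => ∑ U ∈ s x, a U x ^ 2) *
        Real.sqrt (avg fun x => ∑ U ∈ s x, b U x ^ 2) := by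
  set A := fun x => ∑ U ∈ s x, a U x ^ 2
  set C := fun x => ∑ U ∈ s x, b U x ^ 2
  have hA : ∀ x, 0 ≤ A x := fun x => sum_nonneg fun _ _ => sq_nonneg _
  have hC : ∀ x, 0 ≤ C x := fun x => sum_nonneg fun _ _ => sq_nonneg _
  have h1 : ∀ x, ∑ U ∈ s x, a U x * b U x ≤ Real.sqrt (A x) * Real.sqrt (C x) := fun x => by
    exact Real.sum_mul_le_sqrt_mul_sqrt _ _ _
  refine (avg_mono h1).trans ?_
  have h2 := avg_mul_sq_le (fun x => Real.sqrt (A x)) (fun x => Real.sqrt (C x))
  simp only [Real.sq_sqrt (hA _), Real.sq_sqrt (hC _)] at h2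
  rw [← Real.sqrt_mul (avg_nonneg hA)]
  exact Real.le_sqrt_of_sq_le h2

lemma card_powerset_le (A : Finset ι) (d : ℕ) :
    ((A.powerset.filter fun U => U.card ≤ d).card : ℕ) ≤ (A.card + 1) ^ d := by
  induction d with
  | zero =>
    refine (card_le_card (t := {∅}) ?_).trans (by simp)
    intro U hU
    simp only [mem_filter, Nat.le_zero, card_eq_zero] at hU
    exact mem_singleton.mpr hU.2
  | succ d ih =>
    set P := A.powerset.filter fun U => U.card ≤ d
    have hsub : (A.powerset.filter fun U => U.card ≤ d + 1) ⊆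
        insert ∅ ((A ×ˢ P).image fun p => insert p.1 p.2) := by
      intro U hU
      simp only [mem_filter, mem_powerset] at hU
      rcases U.eq_empty_or_nonempty with h | ⟨i, hi⟩
      · exact mem_insert.mpr (Or.inl h)
      · refine mem_insert.mpr (Or.inr (mem_image.mpr ⟨(i, U.erase i), ?_, insert_erase hi⟩))
        simp only [mem_product, P, mem_filter, mem_powerset]
        refine ⟨hU.1 hi, (erase_subset i U).trans hU.1, ?_⟩
        rw [card_erase_of_mem hi]; omega
    have h1 := (card_le_card hsub).trans (card_insert_le _ _)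
    have h2 := card_image_le (s := A ×ˢ P) (f := fun p => insert p.1 p.2)
    rw [card_product] at h2
    have h3 : 1 ≤ (A.card + 1) ^ d := Nat.one_le_pow _ _ (by omega)
    have h4 : A.card * P.card ≤ A.card * (A.card + 1) ^ d := Nat.mul_le_mul_left _ ih
    rw [pow_succ, mul_comm ((A.card + 1) ^ d), add_mul, one_mul]
    omega

lemma sum_biUnion_le' {κ : Type*} (s : Finset κ) (t : κ → Finset (Finset ι)) {f : Finset ι → ℝ}
    (hf : ∀ U, 0 ≤ f U) : ∑ U ∈ s.biUnion t, f U ≤ ∑ i ∈ s, ∑ U ∈ t i, f U := by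
  classical
  induction s using Finset.induction_on with
  | empty => simp
  | @insert a s ha ih =>
    rw [biUnion_insert, sum_insert ha]
    refine le_trans ?_ (add_le_add_right ih _)
    rw [← sum_union_inter]
    exact le_add_of_nonneg_right (sum_nonneg fun _ _ => hf _)

theorem band_le {F : (ι → Bool) → ℝ} (hF : ∀ x, F x = 1 ∨ F x = -1) (J : Finset ι)
    (B UU : Finset (Finset ι)) (k d : ℕ) {θ Λ Mx : ℝ} (hθ : 0 < θ) (hΛ : 0 < Λ)
    (hk : ∀ S ∈ B, S.card ≤ k) (hUU : ∀ U ∈ UU, U ⊆ J ∧ U.card ≤ d)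
    (hMx : ∀ U ∈ UU, mass F B J U ≤ Mx) :
    ∑ U ∈ UU, mass F B J U ≤ Real.sqrt ((3 ^ d * Real.sqrt θ + 1 / Λ) * ∑ i, infl F i) +
      Real.sqrt (Real.sqrt ((Λ / θ + 1) ^ d * 9 ^ k * Mx)) := by
  rcases UU.eq_empty_or_nonempty with he | ⟨U0, hU0⟩
  · subst he
    simp only [sum_empty]
    positivity
  have hMx0 : 0 ≤ Mx := (sum_nonneg fun _ _ => sq_nonneg _).trans (hMx U0 hU0)
  set g := fun U x => trPart F B J U x with hg
  set h := fun U x => trPart F univ J U x with hh
  have hFx : ∀ x y, slice F J x y = 1 ∨ slice F J x y = -1 := fun x y => hF _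
  have hh1 : ∀ x, ∑ U, h U x ^ 2 = 1 := fun x => by
    rw [← sum_coef_sq_of_bool (hFx x)]
    exact sum_congr rfl fun U _ => by rw [coef_slice]
  let tot : (ι → Bool) → ℝ := fun x => ∑ i, infl (slice F J x) i
  let jn : (ι → Bool) → Finset ι := fun x => univ.filter fun i => θ < infl (slice F J x) i
  let lst : (ι → Bool) → Finset (Finset ι) := fun x =>
    UU.filter fun U => U ⊆ jn x ∧ tot x ≤ Λ
  let off : (ι → Bool) → Finset (Finset ι) := fun x =>
    UU.filter fun U => ¬(U ⊆ jn x ∧ tot x ≤ Λ)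
  have htot : avg tot ≤ ∑ i, infl F i := by
    simp only [tot]
    rw [avg_sum]
    refine sum_le_sum fun i _ => ?_
    simp only [infl_eq _ i, coef_slice]
    rw [avg_sum]
    simp only [avg_trPart_sq, mass]
    refine le_of_eq_of_le (sum_fiberwise_eq_sum_filter univ _ _ _) ?_
    refine sum_le_sum_of_subset_of_nonneg ?_ fun _ _ _ => sq_nonneg _
    intro S hS
    simp only [mem_filter, mem_univ, true_and, mem_inter] at hS ⊢
    exact hS.1
  have hoff : ∀ x, ∑ U ∈ off x, h U x ^ 2 ≤ (3 ^ d * Real.sqrt θ + 1 / Λ) * tot x := by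
    intro x
    have ht0 : 0 ≤ tot x := sum_nonneg fun i _ => infl_nonneg _ i
    have p1 : 0 ≤ 3 ^ d * Real.sqrt θ * tot x :=
      mul_nonneg (mul_nonneg (by positivity) (Real.sqrt_nonneg _)) ht0
    by_cases ht : tot x ≤ Λ
    · have p2 : 0 ≤ 1 / Λ * tot x := mul_nonneg (by positivity) ht0
      have hsub : off x ⊆ (univ.filter fun i => i ∉ jn x).biUnion fun i =>
          univ.filter fun U : Finset ι => i ∈ U ∧ U.card ≤ d := by
        intro U hU
        simp only [off, mem_filter, ht, and_true] at hU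
        obtain ⟨i, hi, hij⟩ := not_subset.mp hU.2
        simp only [mem_biUnion, mem_filter, mem_univ, true_and]
        exact ⟨i, hij, hi, (hUU U hU.1).2⟩
      have q : ∑ U ∈ off x, h U x ^ 2 ≤ ∑ i ∈ univ.filter (fun i => i ∉ jn x),
          ∑ U ∈ univ.filter (fun U : Finset ι => i ∈ U ∧ U.card ≤ d), h U x ^ 2 :=
        (sum_le_sum_of_subset_of_nonneg hsub fun _ _ _ => sq_nonneg _).trans
          (sum_biUnion_le' _ _ fun _ => sq_nonneg _)
      have q2 : ∀ i ∈ univ.filter (fun i => i ∉ jn x),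
          ∑ U ∈ univ.filter (fun U : Finset ι => i ∈ U ∧ U.card ≤ d), h U x ^ 2 ≤
            3 ^ d * Real.sqrt θ * infl (slice F J x) i := by
        intro i hi
        simp only [jn, mem_filter, mem_univ, true_and, not_lt] at hi
        have := low_infl_le (hFx x) i d
        simp only [coef_slice] at this
        refine this.trans ?_
        rw [mul_assoc]
        refine mul_le_mul_of_nonneg_left ?_ (by positivity)
        rw [mul_comm]
        exact mul_le_mul_of_nonneg_right (Real.sqrt_le_sqrt hi) (infl_nonneg _ i)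
      have q3 : ∑ i ∈ univ.filter (fun i => i ∉ jn x), 3 ^ d * Real.sqrt θ * infl (slice F J x) i ≤
          3 ^ d * Real.sqrt θ * tot x := by
        rw [mul_sum]
        exact sum_le_sum_of_subset_of_nonneg (subset_univ _) fun i _ _ =>
          mul_nonneg (by positivity) (infl_nonneg _ i)
      nlinarith [q.trans ((sum_le_sum q2).trans q3)]
    · have q : ∑ U ∈ off x, h U x ^ 2 ≤ 1 :=
        (hh1 x) ▸ sum_le_sum_of_subset_of_nonneg (subset_univ _) fun _ _ _ => sq_nonneg _
      have : 1 ≤ 1 / Λ * tot x := by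
        rw [one_div, ← div_eq_inv_mul, one_le_div hΛ]
        linarith
      nlinarith
  have hcard : ∀ x, ((lst x).card : ℝ) ≤ (Λ / θ + 1) ^ d := by
    intro x
    by_cases ht : tot x ≤ Λ
    · have h1 : (lst x).card ≤ ((jn x).card + 1) ^ d := by
        refine (card_le_card ?_).trans (card_powerset_le (jn x) d)
        intro U hU
        simp only [lst, mem_filter, mem_powerset] at hU ⊢
        exact ⟨hU.2.1, (hUU U hU.1).2⟩
      have h2 : ((jn x).card : ℝ) ≤ Λ / θ := by
        rw [le_div_iff₀ hθ]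
        calc ((jn x).card : ℝ) * θ = ∑ i ∈ jn x, θ := by simp
          _ ≤ ∑ i ∈ jn x, infl (slice F J x) i :=
              sum_le_sum fun i hi => (mem_filter.mp hi).2.le
          _ ≤ tot x := sum_le_sum_of_subset_of_nonneg (subset_univ _) fun i _ _ => infl_nonneg _ i
          _ ≤ Λ := ht
      calc ((lst x).card : ℝ) ≤ (((jn x).card + 1) ^ d : ℕ) := by exact_mod_cast h1
        _ ≤ (Λ / θ + 1) ^ d := by push_cast; gcongr
    · simp only [lst, ht, and_false, filter_false, card_empty, CharP.cast_eq_zero]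
      positivity
  have hgsum : avg (fun x => ∑ U ∈ UU, g U x ^ 2) = ∑ U ∈ UU, mass F B J U := by
    rw [avg_sum]; exact sum_congr rfl fun U _ => avg_trPart_sq F B J U
  have hM1 : ∑ U ∈ UU, mass F B J U ≤ 1 := by
    refine (sum_le_sum_of_subset_of_nonneg (subset_univ UU) fun _ _ _ =>
      sum_nonneg fun _ _ => sq_nonneg _).trans ?_
    rw [sum_fiberwise B (fun S => S ∩ J) fun S => coef F S ^ 2, ← sum_coef_sq_of_bool hF]
    exact sum_le_sum_of_subset_of_nonneg (subset_univ _) fun _ _ _ => sq_nonneg _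
  have hM0 : ∀ U, 0 ≤ mass F B J U := fun U => sum_nonneg fun _ _ => sq_nonneg _
  have hsplit : ∑ U ∈ UU, mass F B J U =
      avg (fun x => ∑ U ∈ lst x, g U x * h U x) + avg (fun x => ∑ U ∈ off x, g U x * h U x) := by
    rw [← avg_add]
    simp only [lst, off, sum_filter_add_sum_filter_not]
    rw [avg_sum]
    exact sum_congr rfl fun U _ => (avg_trPart_mul F B univ J U (subset_univ _)).symm
  have b1 : avg (fun x => ∑ U ∈ off x, g U x * h U x) ≤
      Real.sqrt ((3 ^ d * Real.sqrt θ + 1 / Λ) * ∑ i, infl F i) := by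
    refine (avg_sum_mul_le off g h).trans ?_
    have t1 : avg (fun x => ∑ U ∈ off x, g U x ^ 2) ≤ 1 := by
      refine le_trans (avg_mono fun x => ?_) (hgsum.trans_le hM1)
      exact sum_le_sum_of_subset_of_nonneg (filter_subset _ _) fun _ _ _ => sq_nonneg _
    have t2 : avg (fun x => ∑ U ∈ off x, h U x ^ 2) ≤
        (3 ^ d * Real.sqrt θ + 1 / Λ) * ∑ i, infl F i := by
      refine (avg_mono hoff).trans ?_
      rw [avg_smul]
      exact mul_le_mul_of_nonneg_left htot (by positivity)
    refine (mul_le_mul (Real.sqrt_le_one.mpr t1) (Real.sqrt_le_sqrt t2)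
      (Real.sqrt_nonneg _) zero_le_one).trans_eq (one_mul _)
  have b2 : avg (fun x => ∑ U ∈ lst x, g U x * h U x) ≤
      Real.sqrt (Real.sqrt ((Λ / θ + 1) ^ d * 9 ^ k * Mx)) := by
    refine (avg_sum_mul_le lst g h).trans ?_
    have t2 : avg (fun x => ∑ U ∈ lst x, h U x ^ 2) ≤ 1 := by
      refine (avg_mono (g := fun _ => (1:ℝ)) fun x => ?_).trans_eq (avg_const 1)
      exact (hh1 x) ▸ sum_le_sum_of_subset_of_nonneg (subset_univ _) fun _ _ _ => sq_nonneg _
    have t1 : avg (fun x => ∑ U ∈ lst x, g U x ^ 2) ≤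
        Real.sqrt ((Λ / θ + 1) ^ d * 9 ^ k * Mx) := by
      have cs := avg_sum_mul_le lst (fun _ _ => (1:ℝ)) (fun U x => g U x ^ 2)
      simp only [one_mul] at cs
      refine cs.trans ?_
      rw [← Real.sqrt_mul (avg_nonneg fun x => sum_nonneg fun _ _ => by positivity)]
      refine Real.sqrt_le_sqrt ?_
      rw [mul_assoc _ ((9:ℝ) ^ k) Mx]
      refine mul_le_mul ?_ ?_ (avg_nonneg fun x => sum_nonneg fun _ _ => sq_nonneg _) (by positivity)
      · refine (avg_mono (g := fun _ => (Λ / θ + 1) ^ d) fun x => ?_).trans_eq (avg_const _)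
        simpa using hcard x
      · refine (avg_mono (g := fun x => ∑ U ∈ UU, g U x ^ 4) fun x => ?_).trans ?_
        · simp only [← pow_mul]
          exact sum_le_sum_of_subset_of_nonneg (filter_subset _ _) fun U _ _ => Even.pow_nonneg (by decide) _
        · rw [avg_sum]
          refine (sum_le_sum fun U hU => (avg_trPart_four_le F B J U k hk).trans
            (show 9 ^ k * mass F B J U ^ 2 ≤ 9 ^ k * Mx * mass F B J U by
              rw [sq, ← mul_assoc, mul_comm _ (mass F B J U), mul_comm (9 ^ k * Mx)]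
              exact mul_le_mul_of_nonneg_left
                (mul_le_mul_of_nonneg_left (hMx U hU) (by positivity)) (hM0 U))).trans ?_
          rw [← mul_sum]
          exact mul_le_of_le_one_right (by positivity) hM1
    refine (mul_le_mul (Real.sqrt_le_sqrt t1) (Real.sqrt_le_one.mpr t2)
      (Real.sqrt_nonneg _) (Real.sqrt_nonneg _)).trans_eq (mul_one _)
  linarith

theorem card_mul_mass_le {F : (ι → Bool) → ℝ} (hF : ∀ x, F x = 1 ∨ F x = -1) (J U : Finset ι)
    (B : Finset (Finset ι)) (k : ℕ) (O : Finset (Finset ι)) (hk : ∀ S ∈ B, S.card ≤ k)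
    (hO : ∀ V ∈ O, ∑ S ∈ B.filter (fun S => V ⊆ S), coef F S ^ 2 =
      ∑ S ∈ B.filter (fun S => U ⊆ S), coef F S ^ 2) :
    (O.card : ℝ) * mass F B J U ≤ 2 ^ k := by
  have h1 : mass F B J U ≤ ∑ S ∈ B.filter (fun S => U ⊆ S), coef F S ^ 2 := by
    refine sum_le_sum_of_subset_of_nonneg ?_ fun _ _ _ => sq_nonneg _
    intro S hS
    rw [mem_filter] at hS ⊢
    exact ⟨hS.1, hS.2 ▸ inter_subset_left⟩
  calc (O.card : ℝ) * mass F B J U
      ≤ ∑ V ∈ O, ∑ S ∈ B.filter (fun S => V ⊆ S), coef F S ^ 2 := by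
        rw [sum_congr rfl hO, sum_const, nsmul_eq_mul]
        exact mul_le_mul_of_nonneg_left h1 (Nat.cast_nonneg _)
    _ = ∑ S ∈ B, ((O.filter fun V => V ⊆ S).card : ℝ) * coef F S ^ 2 := by
        simp only [sum_filter]
        rw [sum_comm]
        refine sum_congr rfl fun S _ => ?_
        rw [← sum_filter, sum_const, nsmul_eq_mul]
    _ ≤ ∑ S ∈ B, 2 ^ k * coef F S ^ 2 := by
        refine sum_le_sum fun S hS => mul_le_mul_of_nonneg_right ?_ (sq_nonneg _)
        have : (O.filter fun V => V ⊆ S).card ≤ 2 ^ k := by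
          refine (card_le_card (t := S.powerset) fun V hV => ?_).trans ?_
          · exact mem_powerset.mpr (mem_filter.mp hV).2
          · rw [card_powerset]; exact Nat.pow_le_pow_right (by norm_num) (hk S hS)
        exact_mod_cast this
    _ ≤ 2 ^ k := by
        rw [← mul_sum]
        refine mul_le_of_le_one_right (by positivity) ?_
        rw [← sum_coef_sq_of_bool hF]
        exact sum_le_sum_of_subset_of_nonneg (subset_univ _) fun _ _ _ => sq_nonneg _

end Vale.Agent.P063
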