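import Mathlib

/-!
# Hypergraph properties and their threshold
-/

namespace Vale.Agent.P063

open Finset

/-- The `r`-subsets of `Fin n`. -/
abbrev Edge (n r : ℕ) : Type := {s : Finset (Fin n) // s.card = r}

/-- The action of a vertex permutation on `r`-sets. -/
def relabel {n r : ℕ} (σ : Equiv.Perm (Fin n)) (e : Edge n r) : Edge n r :=
  ⟨e.1.map σ.toEmbedding, by rw [card_map]; exact e.2⟩

variable {E : Type} [Fintype E] [DecidableEq E]

/-- The expectation of `h` when each coordinate is `true` independently with probability `p`. -/
noncomputable def ex (p : ℝ) (h : (E → Bool) → ℝ) : ℝ :=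
  ∑ y, (∏ e, if y e then p else 1 - p) * h y

/-- The probability of the event `f`. -/
noncomputable def mu (f : (E → Bool) → Bool) (p : ℝ) : ℝ :=
  ex p fun y => if f y then 1 else 0

/-- The threshold `p_a`. -/
noncomputable def pq (f : (E → Bool) → Bool) (a : ℝ) : ℝ :=
  sInf {p : ℝ | p ∈ Set.Icc 0 1 ∧ a ≤ mu f p}

/-- The sum of the pivotality probabilities of a monotone event. -/
noncomputable def piv (f : (E → Bool) → Bool) (p : ℝ) : ℝ :=
  ∑ e, ex p fun y => (if f (Function.update y e true) then (1:ℝ) else 0) -
    (if f (Function.update y e false) then 1 else 0)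

end Vale.Agent.P063
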