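import Mathlib

/-!
# Resampling one coordinate of a finite product
-/

namespace Vale.Agent.P063

open Finset

variable {E W : Type} [Fintype E] [DecidableEq E] [Fintype W]

/-- Exchange the coordinate `e` with an outside value. -/
lemma sum_update_eq (e : E) (A : (E → W) → W → ℝ) :
    ∑ z : E → W, ∑ w, A (Function.update z e w) (z e) = ∑ z : E → W, ∑ w, A z w := by
  rw [← Fintype.sum_prod_type', ← Fintype.sum_prod_type']
  refine Fintype.sum_equiv
    (Function.Involutive.toPerm (fun q : (E → W) × W => (Function.update q.1 e q.2, q.1 e)) ?_)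
    _ _ fun q => rfl
  intro q
  ext i
  · simp
  · simp

lemma card_mul_sum_eq (e : E) (g : (E → W) → ℝ) :
    (Fintype.card W : ℝ) * ∑ z : E → W, g z = ∑ z : E → W, ∑ w, g (Function.update z e w) := by
  rw [sum_update_eq e (fun z _ => g z), mul_sum]
  simp

/-- A factor depending only on the coordinate `e` averages out. -/
lemma card_mul_sum_factor (e : E) (D : W → ℝ) (g : (E → W) → ℝ)
    (hg : ∀ z w, g (Function.update z e w) = g z) :
    (Fintype.card W : ℝ) * ∑ z : E → W, D (z e) * g z = (∑ w, D w) * ∑ z : E → W, g z := by
  rw [card_mul_sum_eq e, mul_sum]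
  refine sum_congr rfl fun z _ => ?_
  simp only [Function.update_self, hg, sum_mul]

end Vale.Agent.P063
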