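import Vale.Agent.P063.Cube
import Vale.Agent.P063.Defs
import Vale.Agent.P063.Upd

/-!
# Biased bits from fair coins
-/

namespace Vale.Agent.P063

open Finset

/-- `thr m a x` reads the coins `x` as a number and compares it with `a`. -/
def thr : (m : ℕ) → ℕ → (Fin m → Bool) → Bool
  | 0, a, _ => decide (0 < a)
  | m + 1, a, x => if a ≤ 2 ^ m then (!x 0 && thr m a (fun j => x j.succ))
      else (!x 0 || thr m (a - 2 ^ m) (fun j => x j.succ))

lemma sum_cons {m : ℕ} (A : (Fin (m + 1) → Bool) → ℝ) :
    ∑ x, A x = ∑ y : Fin m → Bool, (A (Fin.cons true y) + A (Fin.cons false y)) := by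
  rw [← (Fin.consEquiv fun _ : Fin (m + 1) => Bool).sum_comp, Fintype.sum_prod_type,
    Fintype.sum_bool, ← sum_add_distrib]
  rfl

lemma sum_thr : ∀ (m a : ℕ), a ≤ 2 ^ m → ∑ x, (if thr m a x then (1:ℝ) else 0) = (a : ℝ) := by
  intro m
  induction m with
  | zero =>
    intro a ha
    simp only [pow_zero] at ha
    interval_cases a <;> simp [thr]
  | succ m ih =>
    intro a ha
    rw [sum_cons, sum_add_distrib]
    simp only [thr, Fin.cons_zero, Fin.cons_succ]
    split_ifs with h
    · simp [ih a h]
    · have h2 : a - 2 ^ m ≤ 2 ^ m := by rw [pow_succ] at ha; omega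
      simp [ih _ h2, Nat.cast_sub (not_le.mp h).le]

lemma sum_thr_flip : ∀ (m a : ℕ) (j : Fin m),
    ∑ x, (if thr m a x = thr m a (flipAt j x) then (0:ℝ) else 1) ≤ 2 ^ m * (1 / 2) ^ (j : ℕ) := by
  intro m
  induction m with
  | zero => intro a j; exact j.elim0
  | succ m ih =>
    intro a j
    cases j using Fin.cases with
    | zero =>
      simp only [Fin.val_zero, pow_zero, mul_one]
      refine (sum_le_sum (g := fun _ => (1:ℝ)) fun x _ => ?_).trans (by simp)
      split_ifs <;> norm_num
    | succ j =>
      have hfl : ∀ b (y : Fin m → Bool), flipAt j.succ (Fin.cons b y : Fin (m + 1) → Bool) =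
          Fin.cons b (flipAt j y) := fun b y => by
        simp only [flipAt, Fin.cons_succ]
        exact (Fin.cons_update _ _ _ _).symm
      rw [sum_cons, sum_add_distrib]
      simp only [hfl]
      simp only [thr, Fin.cons_zero, Fin.cons_succ, Fin.val_succ]
      have e : (2:ℝ) ^ (m + 1) * (1 / 2) ^ ((j : ℕ) + 1) = 2 ^ m * (1 / 2) ^ (j : ℕ) := by ring
      rw [e]
      split_ifs with h
      · simpa using ih a j
      · simpa using ih (a - 2 ^ m) j

variable {E : Type} [Fintype E] [DecidableEq E]

/-- The edge set read from the coins. -/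
def read (m a : ℕ) (x : E × Fin m → Bool) : E → Bool := fun e => thr m a fun j => x (e, j)

/-- The signed indicator of `f`, as a function of the coins. -/
noncomputable def pull (m a : ℕ) (f : (E → Bool) → Bool) (x : E × Fin m → Bool) : ℝ :=
  sgn (f (read m a x))

lemma sum_curry {m : ℕ} (A : (E × Fin m → Bool) → ℝ) :
    ∑ x, A x = ∑ z : E → Fin m → Bool, A (fun c => z c.1 c.2) :=
  (Fintype.sum_equiv (Equiv.curry E (Fin m) Bool).symm (fun z => A (fun c => z c.1 c.2)) A
    fun _ => rfl).symm

theorem avg_read {m a : ℕ} (ha : a ≤ 2 ^ m) (h : (E → Bool) → ℝ) :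
    avg (fun x : E × Fin m → Bool => h (read m a x)) = ex ((a : ℝ) / 2 ^ m) h := by
  have hP : ∀ b : Bool, ∑ w, (if thr m a w = b then (1:ℝ) else 0) =
      2 ^ m * (if b then (a : ℝ) / 2 ^ m else 1 - (a : ℝ) / 2 ^ m) := by
    intro b
    have h1 := sum_thr m a ha
    cases b
    · have e : ∀ w, (if thr m a w = false then (1:ℝ) else 0) =
          1 - (if thr m a w then (1:ℝ) else 0) := fun w => by cases thr m a w <;> simp
      simp only [e, sum_sub_distrib, h1]
      simp [mul_sub, mul_div_cancel₀]
    · simp [mul_div_cancel₀, h1]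
  have e1 : ∑ x : E × Fin m → Bool, h (read m a x) =
      ∑ y : E → Bool, h y * ∏ e, ∑ w, (if thr m a w = y e then (1:ℝ) else 0) := by
    rw [sum_curry]
    simp only [Fintype.prod_sum, mul_sum]
    rw [sum_comm]
    refine sum_congr rfl fun z _ => ?_
    rw [sum_eq_single (read m a fun c => z c.1 c.2)]
    · simp [read]
    · intro y _ hy
      obtain ⟨e, he⟩ := Function.ne_iff.mp hy
      rw [prod_eq_zero (mem_univ e), mul_zero]
      exact if_neg fun hh => he (by simp only [read]; exact hh.symm)
    · simp
  simp only [hP, prod_mul_distrib, prod_const, card_univ] at e1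
  rw [avg, e1, ex, sum_div]
  refine sum_congr rfl fun y _ => ?_
  rw [Fintype.card_prod, Fintype.card_fin, mul_comm (Fintype.card E) m, pow_mul]
  field_simp

lemma sgn_diff_sq (T T' Ft Ff : Bool) (h : Ff ≤ Ft) :
    ((sgn (cond T Ft Ff) - sgn (cond T' Ft Ff)) / 2) ^ 2 =
      (if T = T' then (0:ℝ) else 1) *
        ((if Ft then (1:ℝ) else 0) - if Ff then 1 else 0) := by
  revert h
  cases T <;> cases T' <;> cases Ft <;> cases Ff <;> norm_num [sgn]

theorem sum_infl_pull_le {m a : ℕ} (ha : a ≤ 2 ^ m) (f : (E → Bool) → Bool) (hf : Monotone f)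
    (j : Fin m) :
    ∑ e, infl (pull m a f) (e, j) ≤ (1 / 2) ^ (j : ℕ) * piv f ((a : ℝ) / 2 ^ m) := by
  rw [piv, mul_sum]
  refine sum_le_sum fun e _ => ?_
  set g : (E → Bool) → ℝ := fun y => (if f (Function.update y e true) then (1:ℝ) else 0) -
    (if f (Function.update y e false) then 1 else 0) with hg
  rw [← avg_read ha g]
  set D : (Fin m → Bool) → ℝ := fun w => if thr m a w = thr m a (flipAt j w) then 0 else 1 with hD

  have hpt : ∀ x : E × Fin m → Bool,
      ((pull m a f x - pull m a f (flipAt (e, j) x)) / 2) ^ 2 =
        D (fun i => x (e, i)) * g (read m a x) := by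
    intro x
    have hr : read m a (flipAt (e, j) x) =
        Function.update (read m a x) e (thr m a (flipAt j fun i => x (e, i))) := by
      funext e'
      by_cases he : e' = e
      · subst he
        rw [Function.update_self, read]
        congr 1
        funext i
        by_cases hi : i = j <;> simp [flipAt, hi]
      · rw [Function.update_of_ne he, read, read]
        congr 1
        funext i
        simp [flipAt, Function.update_of_ne, he]
    have hm := hf (show Function.update (read m a x) e false ≤ Function.update (read m a x) e true by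
      intro i
      by_cases hi : i = e
      · subst hi; simp
      · simp [Function.update_of_ne hi])
    have hsel : ∀ T : Bool, f (Function.update (read m a x) e T) =
        cond T (f (Function.update (read m a x) e true)) (f (Function.update (read m a x) e false)) :=
      fun T => by cases T <;> rfl
    have hself : f (read m a x) = f (Function.update (read m a x) e
        (thr m a fun i => x (e, i))) := by
      rw [show thr m a (fun i => x (e, i)) = read m a x e from rfl, Function.update_eq_self]
    simp only [pull, hr, hD, hg]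
    rw [hself, hsel, hsel (thr m a (flipAt j fun i => x (e, i)))]
    exact sgn_diff_sq _ _ _ _ hm
  unfold infl avg
  simp only [hpt]
  rw [← mul_div_assoc]
  refine div_le_div_of_nonneg_right ?_ (by positivity)
  rw [sum_curry, sum_curry fun x => g (read m a x)]
  have hfac := card_mul_sum_factor (W := Fin m → Bool) e D
    (fun z => g (read m a fun c => z c.1 c.2)) fun z w => by
      have : (read m a fun c => Function.update z e w c.1 c.2) =
          Function.update (read m a fun c => z c.1 c.2) e (thr m a w) := by
        funext e'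
        by_cases he : e' = e
        · subst he; simp [read]
        · simp [read, Function.update_of_ne he]
      simp only [this, hg, Function.update_idem]
  have hsum : ∑ w, D w ≤ 2 ^ m * (1 / 2) ^ (j : ℕ) := sum_thr_flip m a j
  have hg0 : 0 ≤ ∑ z : E → Fin m → Bool, g (read m a fun c => z c.1 c.2) := by
    refine sum_nonneg fun z _ => ?_
    have hm := hf (show Function.update (read m a fun c => z c.1 c.2) e false ≤
        Function.update (read m a fun c => z c.1 c.2) e true by
      intro i
      by_cases hi : i = e
      · subst hi; simp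
      · simp [Function.update_of_ne hi])
    revert hm
    simp only [hg]
    cases f (Function.update (read m a fun c => z c.1 c.2) e false) <;>
      cases f (Function.update (read m a fun c => z c.1 c.2) e true) <;> simp
  refine le_of_mul_le_mul_left ?_ (show (0:ℝ) < Fintype.card (Fin m → Bool) by positivity)
  rw [hfac]
  simp only [Fintype.card_fun, Fintype.card_bool, Fintype.card_fin, Nat.cast_pow, Nat.cast_ofNat]
  rw [← mul_assoc]
  exact mul_le_mul_of_nonneg_right hsum hg0

theorem var_pull {m a : ℕ} (ha : a ≤ 2 ^ m) (f : (E → Bool) → Bool) :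
    avg (fun x => pull m a f x ^ 2) - avg (pull m a f) ^ 2 =
      4 * mu f ((a : ℝ) / 2 ^ m) * (1 - mu f ((a : ℝ) / 2 ^ m)) := by
  have e1 : (fun x : E × Fin m → Bool => pull m a f x ^ 2) = fun _ => (1:ℝ) := by
    funext x
    rw [pull, sq, sgn_sq]
  have e2 : pull m a f = fun x => 2 * (if f (read m a x) then (1:ℝ) else 0) - 1 := by
    funext x
    rw [pull]
    cases f (read m a x) <;> norm_num
  rw [e1, avg_const, e2, avg_sub, avg_smul, avg_const,
    avg_read ha fun y => if f y then (1:ℝ) else 0, mu]
  ring

end Vale.Agent.P063
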