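import Mathlib

/-!
# Fourier analysis on a finite uniform cube
-/

set_option linter.unusedSectionVars false

namespace Vale.Agent.P063

open Finset

variable {ι : Type} [Fintype ι] [DecidableEq ι]

/-- The sign of a bit. -/
def sgn (b : Bool) : ℝ := if b then 1 else -1

/-- The character of `S`. -/
def chi (S : Finset ι) (x : ι → Bool) : ℝ := ∏ i ∈ S, sgn (x i)

/-- The uniform average. -/
noncomputable def avg (f : (ι → Bool) → ℝ) : ℝ := (∑ x, f x) / 2 ^ Fintype.card ι

/-- The Fourier coefficient. -/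
noncomputable def coef (f : (ι → Bool) → ℝ) (S : Finset ι) : ℝ := avg fun x => f x * chi S x

/-- Flip coordinate `i`. -/
def flipAt (i : ι) (x : ι → Bool) : ι → Bool := Function.update x i (!x i)

/-- The influence of coordinate `i`. -/
noncomputable def infl (f : (ι → Bool) → ℝ) (i : ι) : ℝ :=
  avg fun x => ((f x - f (flipAt i x)) / 2) ^ 2

@[simp] lemma sgn_true : sgn true = 1 := rfl
@[simp] lemma sgn_false : sgn false = -1 := rfl

lemma sgn_sq (b : Bool) : sgn b * sgn b = 1 := by cases b <;> norm_num [sgn]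

lemma sgn_not (b : Bool) : sgn (!b) = - sgn b := by cases b <;> norm_num [sgn]

lemma chi_sq (S : Finset ι) (x : ι → Bool) : chi S x * chi S x = 1 := by
  rw [chi, ← prod_mul_distrib]
  exact prod_eq_one fun i _ => sgn_sq _

lemma avg_const (c : ℝ) : avg (fun _ : ι → Bool => c) = c := by
  simp [avg]

lemma avg_add (f g : (ι → Bool) → ℝ) : avg (fun x => f x + g x) = avg f + avg g := by
  simp [avg, sum_add_distrib, add_div]

lemma avg_sub (f g : (ι → Bool) → ℝ) : avg (fun x => f x - g x) = avg f - avg g := by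
  simp [avg, sum_sub_distrib, sub_div]

lemma avg_smul (c : ℝ) (f : (ι → Bool) → ℝ) : avg (fun x => c * f x) = c * avg f := by
  simp [avg, ← mul_sum, mul_div_assoc]

lemma avg_sum {κ : Type*} (s : Finset κ) (f : κ → (ι → Bool) → ℝ) :
    avg (fun x => ∑ k ∈ s, f k x) = ∑ k ∈ s, avg (f k) := by
  simp only [avg]
  rw [Finset.sum_comm, Finset.sum_div]

lemma avg_mono {f g : (ι → Bool) → ℝ} (h : ∀ x, f x ≤ g x) : avg f ≤ avg g := by
  unfold avg
  gcongr with x
  exact h x

lemma avg_nonneg {f : (ι → Bool) → ℝ} (h : ∀ x, 0 ≤ f x) : 0 ≤ avg f := by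
  unfold avg
  exact div_nonneg (sum_nonneg fun x _ => h x) (by positivity)

lemma avg_mul_sq_le (f g : (ι → Bool) → ℝ) :
    avg (fun x => f x * g x) ^ 2 ≤ avg (fun x => f x ^ 2) * avg (fun x => g x ^ 2) := by
  simp only [avg, div_pow]
  rw [div_mul_div_comm, ← sq ((2:ℝ) ^ Fintype.card ι)]
  gcongr
  exact sum_mul_sq_le_sq_mul_sq _ f g

lemma chi_sum_sets (x y : ι → Bool) :
    ∑ S : Finset ι, chi S x * chi S y = if x = y then (2:ℝ) ^ Fintype.card ι else 0 := by
  simp only [chi, ← prod_mul_distrib]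
  rw [← powerset_univ, ← prod_one_add]
  split_ifs with h
  · subst h
    simp only [sgn_sq, one_add_one_eq_two, prod_const, card_univ]
  · obtain ⟨i, hi⟩ := Function.ne_iff.mp h
    refine prod_eq_zero (mem_univ i) ?_
    revert hi
    cases x i <;> cases y i <;> norm_num [sgn]

lemma expansion (f : (ι → Bool) → ℝ) (x : ι → Bool) :
    f x = ∑ S : Finset ι, coef f S * chi S x := by
  have h2 : (2:ℝ) ^ Fintype.card ι ≠ 0 := by positivity
  simp only [coef, avg, div_mul_eq_mul_div, ← sum_div, sum_mul, mul_assoc]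
  rw [sum_comm]
  simp only [← mul_sum, chi_sum_sets, mul_ite, mul_zero, sum_ite_eq', mem_univ, if_true]
  field_simp

omit [Fintype ι] [DecidableEq ι] in
lemma chi_congr {S : Finset ι} {x y : ι → Bool} (h : ∀ i ∈ S, x i = y i) : chi S x = chi S y :=
  prod_congr rfl fun i hi => by rw [h i hi]

omit [Fintype ι] in
lemma chi_union {S T : Finset ι} (h : Disjoint S T) (x : ι → Bool) :
    chi (S ∪ T) x = chi S x * chi T x := prod_union h

omit [Fintype ι] in
lemma chi_flip_of_mem {S : Finset ι} {i : ι} (hi : i ∈ S) (x : ι → Bool) :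
    chi S (flipAt i x) = - chi S x := by
  rw [chi, chi, ← mul_prod_erase S _ hi, ← mul_prod_erase S _ hi, flipAt, Function.update_self,
    sgn_not, neg_mul]
  congr 2
  exact prod_congr rfl fun j hj => by rw [Function.update_of_ne (ne_of_mem_erase hj)]

omit [Fintype ι] in
lemma chi_flip_of_not_mem {S : Finset ι} {i : ι} (hi : i ∉ S) (x : ι → Bool) :
    chi S (flipAt i x) = chi S x :=
  chi_congr fun j hj => Function.update_of_ne (fun h => hi (by rw [← h]; exact hj)) _ _

omit [Fintype ι] in
lemma flipAt_flipAt (i : ι) (x : ι → Bool) : flipAt i (flipAt i x) = x := by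
  funext j
  by_cases hj : j = i
  · subst hj; simp [flipAt]
  · simp [flipAt, Function.update_of_ne hj]

lemma avg_flipAt (i : ι) (f : (ι → Bool) → ℝ) : avg (fun x => f (flipAt i x)) = avg f := by
  unfold avg
  congr 1
  exact Fintype.sum_equiv (Function.Involutive.toPerm (flipAt i) (flipAt_flipAt i)) _ _ fun x => rfl

lemma chi_mul (S T : Finset ι) (x : ι → Bool) :
    chi S x * chi T x = chi (symmDiff S T) x := by
  have h1 : S = (S \ T) ∪ (S ∩ T) := (sdiff_union_inter S T).symm
  have h2 : T = (T \ S) ∪ (S ∩ T) := by rw [inter_comm, sdiff_union_inter]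
  have hd1 : Disjoint (S \ T) (S ∩ T) := disjoint_sdiff_inter S T
  have hd2 : Disjoint (T \ S) (S ∩ T) := by rw [inter_comm]; exact disjoint_sdiff_inter T S
  have e1 : chi S x = chi (S \ T) x * chi (S ∩ T) x := by rw [← chi_union hd1, ← h1]
  have e2 : chi T x = chi (T \ S) x * chi (S ∩ T) x := by rw [← chi_union hd2, ← h2]
  rw [symmDiff_def, sup_eq_union, chi_union disjoint_sdiff_sdiff, e1, e2]
  linear_combination chi (S \ T) x * chi (T \ S) x * chi_sq (S ∩ T) x

lemma avg_chi (S : Finset ι) : avg (chi S) = if S = ∅ then 1 else 0 := by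
  split_ifs with h
  · subst h; simp [chi, avg]
  · obtain ⟨i, hi⟩ := nonempty_iff_ne_empty.mpr h
    have h' := avg_flipAt i (chi S)
    simp only [chi_flip_of_mem hi] at h'
    have h2 : avg (fun x => -chi S x) = - avg (chi S) := by
      simp [avg, neg_div]
    linarith

lemma avg_chi_mul (S T : Finset ι) :
    avg (fun x => chi S x * chi T x) = if S = T then 1 else 0 := by
  simp only [chi_mul]
  rw [avg_chi]
  simp [symmDiff_eq_bot, ← bot_eq_empty]

/-- The function with coefficients `c` on the family `B`. -/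
def comb (B : Finset (Finset ι)) (c : Finset ι → ℝ) (x : ι → Bool) : ℝ := ∑ S ∈ B, c S * chi S x

lemma avg_comb_mul (B : Finset (Finset ι)) (c : Finset ι → ℝ) (f : (ι → Bool) → ℝ) :
    avg (fun x => comb B c x * f x) = ∑ S ∈ B, c S * coef f S := by
  simp only [comb, sum_mul]
  rw [avg_sum]
  refine sum_congr rfl fun S _ => ?_
  rw [coef, ← avg_smul]
  congr 1
  funext x
  ring

lemma coef_comb (B : Finset (Finset ι)) (c : Finset ι → ℝ) (T : Finset ι) :
    coef (comb B c) T = if T ∈ B then c T else 0 := by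
  rw [coef, avg_comb_mul]
  simp [coef, avg_chi_mul]

lemma avg_comb_sq (B : Finset (Finset ι)) (c : Finset ι → ℝ) :
    avg (fun x => comb B c x ^ 2) = ∑ S ∈ B, c S ^ 2 := by
  simp only [sq]
  rw [avg_comb_mul]
  refine sum_congr rfl fun S hS => ?_
  rw [coef_comb, if_pos hS]

lemma comb_univ (f : (ι → Bool) → ℝ) : comb univ (coef f) = f := by
  funext x
  exact (expansion f x).symm

lemma parseval (f : (ι → Bool) → ℝ) : avg (fun x => f x ^ 2) = ∑ S, coef f S ^ 2 := by
  have h := avg_comb_sq univ (coef f)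
  rwa [comb_univ] at h

/-- The halved difference in direction `i`. -/
noncomputable def der (i : ι) (f : (ι → Bool) → ℝ) (x : ι → Bool) : ℝ := (f x - f (flipAt i x)) / 2

lemma coef_der (i : ι) (f : (ι → Bool) → ℝ) (S : Finset ι) :
    coef (der i f) S = if i ∈ S then coef f S else 0 := by
  have h := avg_flipAt i fun x => f (flipAt i x) * chi S x
  simp only [flipAt_flipAt] at h
  have e : coef (der i f) S = (coef f S - avg (fun x => f (flipAt i x) * chi S x)) / 2 := by
    rw [coef, coef, ← avg_sub, div_eq_inv_mul, ← avg_smul]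
    congr 1
    funext x
    simp only [der]
    ring
  split_ifs with hi
  · simp only [chi_flip_of_mem hi] at h
    have h2 : avg (fun x => f x * -chi S x) = - coef f S := by
      simp [coef, avg, neg_div]
    linarith
  · simp only [chi_flip_of_not_mem hi] at h
    rw [e, ← h, coef, sub_self, zero_div]

lemma infl_eq (f : (ι → Bool) → ℝ) (i : ι) :
    infl f i = ∑ S ∈ univ.filter (fun S => i ∈ S), coef f S ^ 2 := by
  have h := parseval (der i f)
  simp only [coef_der] at h
  rw [sum_filter]
  refine h.trans (sum_congr rfl fun S _ => ?_)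
  split_ifs <;> simp

lemma infl_nonneg (f : (ι → Bool) → ℝ) (i : ι) : 0 ≤ infl f i :=
  avg_nonneg fun _ => sq_nonneg _

/-- Bonami's inequality for the fourth moment. -/
theorem bonami (A : Finset ι) : ∀ (B : Finset (Finset ι)) (c : Finset ι → ℝ) (d : ℕ),
    (∀ S ∈ B, S ⊆ A) → (∀ S ∈ B, S.card ≤ d) →
      avg (fun x => comb B c x ^ 4) ≤ 9 ^ d * (∑ S ∈ B, c S ^ 2) ^ 2 := by
  induction A using Finset.induction_on with
  | empty =>
    intro B c d hA hd
    have hB : ∀ x, comb B c x = if (∅ : Finset ι) ∈ B then c ∅ else 0 := by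
      intro x
      rw [comb]
      split_ifs with h
      · have : B = {∅} := by
          refine eq_singleton_iff_unique_mem.mpr ⟨h, fun S hS => ?_⟩
          exact subset_empty.mp (hA S hS)
        simp [this, chi]
      · refine sum_eq_zero fun S hS => absurd ?_ h
        rw [← subset_empty.mp (hA S hS)]; exact hS
    simp only [hB, avg_const]
    split_ifs with h
    · have h1 : c ∅ ^ 2 ≤ ∑ S ∈ B, c S ^ 2 :=
        single_le_sum (f := fun S => c S ^ 2) (fun S _ => sq_nonneg _) h
      have h2 : (c ∅ ^ 2) ^ 2 ≤ (∑ S ∈ B, c S ^ 2) ^ 2 := pow_le_pow_left₀ (sq_nonneg _) h1 2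
      calc c ∅ ^ 4 = (c ∅ ^ 2) ^ 2 := by ring
        _ ≤ (∑ S ∈ B, c S ^ 2) ^ 2 := h2
        _ ≤ 9 ^ d * (∑ S ∈ B, c S ^ 2) ^ 2 :=
            le_mul_of_one_le_left (sq_nonneg _) (one_le_pow₀ (by norm_num))
    · simp only [ne_eq, OfNat.ofNat_ne_zero, not_false_eq_true, zero_pow]
      positivity
  | @insert a A ha ih =>
    intro B c d hA hd
    let B0 := B.filter (fun S => a ∉ S)
    let B1 := (B.filter (fun S => a ∈ S)).image (fun S => S.erase a)
    let c1 : Finset ι → ℝ := fun T => c (insert a T)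
    have hinj : Set.InjOn (fun S : Finset ι => S.erase a) (B.filter (fun S => a ∈ S)) := by
      intro S hS T hT h
      simp only [coe_filter, Set.mem_setOf_eq] at hS hT
      calc S = insert a (S.erase a) := (insert_erase hS.2).symm
        _ = insert a (T.erase a) := by rw [show S.erase a = T.erase a from h]
        _ = T := insert_erase hT.2
    have hA0 : ∀ S ∈ B0, S ⊆ A := fun S hS => by
      rw [mem_filter] at hS
      exact (subset_insert_iff_of_notMem hS.2).mp (hA S hS.1)
    have hA1 : ∀ S ∈ B1, S ⊆ A := fun S hS => by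
      simp only [B1, mem_image, mem_filter] at hS
      obtain ⟨T, ⟨hT, -⟩, rfl⟩ := hS
      intro j hj
      obtain ⟨hja, hjT⟩ := mem_erase.mp hj
      exact (mem_insert.mp (hA T hT hjT)).resolve_left hja
    have hsum : ∑ S ∈ B, c S ^ 2 = (∑ S ∈ B0, c S ^ 2) + ∑ T ∈ B1, c1 T ^ 2 := by
      rw [← sum_filter_not_add_sum_filter B (fun S => a ∈ S)]
      congr 1
      rw [sum_image hinj]
      refine sum_congr rfl fun S hS => ?_
      simp only [c1, insert_erase (mem_filter.mp hS).2]
    set g0 := comb B0 c with hg0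
    set g1 := comb B1 c1 with hg1
    have hsplit : ∀ x, comb B c x = g0 x + sgn (x a) * g1 x := by
      intro x
      rw [hg0, hg1, comb, comb, comb, ← sum_filter_not_add_sum_filter B (fun S => a ∈ S)]
      congr 1
      rw [sum_image hinj, mul_sum]
      refine sum_congr rfl fun S hS => ?_
      have haS := (mem_filter.mp hS).2
      simp only [c1, insert_erase haS, chi, ← mul_prod_erase S (fun i => sgn (x i)) haS]
      ring
    have hi0 : ∀ x, g0 (flipAt a x) = g0 x := fun x => sum_congr rfl fun S hS => by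
      rw [chi_flip_of_not_mem (fun h => ha (hA0 S hS h))]
    have hi1 : ∀ x, g1 (flipAt a x) = g1 x := fun x => sum_congr rfl fun S hS => by
      rw [chi_flip_of_not_mem (fun h => ha (hA1 S hS h))]
    have h4 : avg (fun x => comb B c x ^ 4) =
        avg (fun x => g0 x ^ 4) + 6 * avg (fun x => g0 x ^ 2 * g1 x ^ 2) +
          avg (fun x => g1 x ^ 4) := by
      have hfl := avg_flipAt a fun x => comb B c x ^ 4
      have hh : avg (fun x => comb B c x ^ 4) + avg (fun x => comb B c (flipAt a x) ^ 4) =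
          2 * (avg (fun x => g0 x ^ 4) + 6 * avg (fun x => g0 x ^ 2 * g1 x ^ 2) +
            avg (fun x => g1 x ^ 4)) := by
        rw [← avg_smul 6, ← avg_add, ← avg_add, ← avg_add, ← avg_smul]
        congr 1
        funext x
        rw [hsplit, hsplit, hi0, hi1, flipAt, Function.update_self, sgn_not]
        have := sgn_sq (x a)
        rcases Bool.eq_false_or_eq_true (x a) with h | h <;> rw [h] <;> simp <;> ring
      linarith
    have hd0 : ∀ S ∈ B0, S.card ≤ d := fun S hS => hd S (mem_filter.mp hS).1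
    set P := ∑ S ∈ B0, c S ^ 2
    set Q := ∑ T ∈ B1, c1 T ^ 2
    have hP : 0 ≤ P := sum_nonneg fun _ _ => sq_nonneg _
    have hQ : 0 ≤ Q := sum_nonneg fun _ _ => sq_nonneg _
    have k0 := ih B0 c d hA0 hd0
    cases d with
    | zero =>
      have hB1 : B1 = ∅ := by
        simp only [B1, image_eq_empty, filter_eq_empty_iff]
        intro S hS haS
        simp [card_eq_zero.mp (Nat.le_zero.mp (hd S hS))] at haS
      have hz : ∀ x, g1 x = 0 := fun x => by simp [hg1, comb, hB1]
      have hQ0 : Q = 0 := by simp [Q, hB1]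
      simp only [hz] at h4
      simp only [ne_eq, OfNat.ofNat_ne_zero, not_false_eq_true, zero_pow, mul_zero, avg_const,
        add_zero] at h4
      rw [h4, hsum, hQ0, add_zero]
      exact k0
    | succ d =>
      have hd1 : ∀ S ∈ B1, S.card ≤ d := fun S hS => by
        simp only [B1, mem_image, mem_filter] at hS
        obtain ⟨T, ⟨hT, haT⟩, rfl⟩ := hS
        have := hd T hT
        rw [card_erase_of_mem haT]
        omega
      have k1 := ih B1 c1 d hA1 hd1
      have hm : avg (fun x => g0 x ^ 2 * g1 x ^ 2) ≤ 3 * 9 ^ d * P * Q := by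
        have cs := avg_mul_sq_le (fun x => g0 x ^ 2) (fun x => g1 x ^ 2)
        have e : ∀ g : (ι → Bool) → ℝ, avg (fun x => (g x ^ 2) ^ 2) = avg (fun x => g x ^ 4) :=
          fun g => by congr 1; funext x; ring
        rw [e, e] at cs
        refine le_of_pow_le_pow_left₀ two_ne_zero (by positivity) (cs.trans ?_)
        refine (mul_le_mul k0 k1 (avg_nonneg fun x => by positivity) (by positivity)).trans
          (le_of_eq ?_)
        ring
      rw [h4, hsum]
      have h9 : (0:ℝ) ≤ 9 ^ d := by positivity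
      rw [pow_succ] at k0 ⊢
      nlinarith [k1, hm, mul_nonneg h9 (mul_nonneg hQ hQ), mul_nonneg h9 (mul_nonneg hP hQ)]

/-- The low part of the mass at a coordinate of small influence. -/
theorem low_infl_le {f : (ι → Bool) → ℝ} (hf : ∀ x, f x = 1 ∨ f x = -1) (i : ι) (d : ℕ) :
    ∑ S ∈ univ.filter (fun S => i ∈ S ∧ S.card ≤ d), coef f S ^ 2 ≤
      3 ^ d * (infl f i * Real.sqrt (infl f i)) := by
  set B := univ.filter (fun S : Finset ι => i ∈ S ∧ S.card ≤ d) with hB
  set c := coef f with hc
  set G := ∑ S ∈ B, c S ^ 2 with hG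
  set D := der i f with hD
  set g := comb B c with hg
  set P := infl f i with hP
  have hG0 : 0 ≤ G := sum_nonneg fun _ _ => sq_nonneg _
  have hP0 : 0 ≤ P := infl_nonneg f i
  have hGD : avg (fun x => g x * D x) = G := by
    rw [hg, avg_comb_mul]
    refine sum_congr rfl fun S hS => ?_
    rw [hD, coef_der, if_pos (mem_filter.mp hS).2.1, sq]
  have hD3 : ∀ x, D x ^ 2 = 0 ∨ D x ^ 2 = 1 := by
    intro x
    rcases hf x with h | h <;> rcases hf (flipAt i x) with h' | h' <;>
      simp only [hD, der, h, h'] <;> norm_num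
  have hb := bonami univ B c d (fun S _ => subset_univ S) fun S hS => (mem_filter.mp hS).2.2
  have hD4 : ∀ x, D x ^ 2 * D x = D x := by
    intro x
    rcases hD3 x with h | h
    · have h0 : D x = 0 := by simpa using h
      simp [h0]
    · rw [h, one_mul]
  have c1 : G ^ 2 ≤ P * avg (fun x => g x ^ 2 * D x ^ 2) := by
    have cs := avg_mul_sq_le D (fun x => g x * D x ^ 2)
    have e : avg (fun x => D x * (g x * D x ^ 2)) = G := by
      rw [← hGD]
      congr 1; funext x
      linear_combination g x * hD4 x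
    have e' : avg (fun x => (g x * D x ^ 2) ^ 2) = avg (fun x => g x ^ 2 * D x ^ 2) := by
      congr 1; funext x
      linear_combination g x ^ 2 * D x * hD4 x
    rwa [e, e'] at cs
  have c2 : avg (fun x => g x ^ 2 * D x ^ 2) ^ 2 ≤ 9 ^ d * G ^ 2 * P := by
    refine (avg_mul_sq_le (fun x => g x ^ 2) (fun x => D x ^ 2)).trans ?_
    have e1 : avg (fun x => (g x ^ 2) ^ 2) = avg (fun x => g x ^ 4) := by
      congr 1; funext x; ring
    have e2 : avg (fun x => (D x ^ 2) ^ 2) = P := by
      refine congrArg avg ?_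
      funext x
      show (D x ^ 2) ^ 2 = D x ^ 2
      rcases hD3 x with h | h <;> rw [h] <;> norm_num
    rw [e1, e2]
    exact mul_le_mul_of_nonneg_right hb hP0
  by_cases hG1 : G = 0
  · rw [hG1]; positivity
  have hGp : 0 < G ^ 2 := by positivity
  have h4 : G ^ 2 * G ^ 2 ≤ G ^ 2 * (9 ^ d * P ^ 3) := by
    have h5 := pow_le_pow_left₀ (sq_nonneg G) c1 2
    rw [mul_pow] at h5
    calc G ^ 2 * G ^ 2 = (G ^ 2) ^ 2 := (sq _).symm
      _ ≤ _ := h5.trans (mul_le_mul_of_nonneg_left c2 (sq_nonneg P))
      _ = G ^ 2 * (9 ^ d * P ^ 3) := by ring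
  refine le_of_pow_le_pow_left₀ two_ne_zero (by positivity) ((le_of_mul_le_mul_left h4 hGp).trans ?_)
  rw [mul_pow, mul_pow, Real.sq_sqrt hP0, ← pow_mul, mul_comm d 2, pow_mul]
  norm_num
  exact le_of_eq (by ring)

end Vale.Agent.P063
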