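import Vale.Agent.P063.Defs
import Vale.Agent.P063.Upd

/-!
# The derivative of the probability and the width
-/

namespace Vale.Agent.P063

open Finset

variable {E : Type} [Fintype E] [DecidableEq E]

/-- The real indicator of an event. -/
def ind (b : Bool) : ℝ := if b then 1 else 0

lemma ind_mono {a b : Bool} (h : a ≤ b) : ind a ≤ ind b := by
  revert h
  cases a <;> cases b <;> simp [ind]

lemma continuous_ex (h : (E → Bool) → ℝ) : Continuous fun p : ℝ => ex p h := by
  unfold ex
  refine continuous_finsetSum _ fun y _ => Continuous.mul ?_ continuous_const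
  refine continuous_finsetProd _ fun e _ => ?_
  cases y e
  · exact continuous_const.sub continuous_id
  · exact continuous_id

lemma ex_nonneg {p : ℝ} (h0 : 0 ≤ p) (h1 : p ≤ 1) {h : (E → Bool) → ℝ} (hh : ∀ y, 0 ≤ h y) :
    0 ≤ ex p h := by
  refine sum_nonneg fun y _ => mul_nonneg (prod_nonneg fun e _ => ?_) (hh y)
  split_ifs <;> linarith

lemma piv_nonneg {f : (E → Bool) → Bool} (hf : Monotone f) {p : ℝ} (h0 : 0 ≤ p) (h1 : p ≤ 1) :
    0 ≤ piv f p := by
  refine sum_nonneg fun e _ => ex_nonneg h0 h1 fun y => sub_nonneg.mpr (ind_mono (hf ?_))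
  intro i
  by_cases hi : i = e
  · subst hi; simp
  · simp [Function.update_of_ne hi]

lemma continuous_piv (f : (E → Bool) → Bool) : Continuous (piv f) :=
  continuous_finsetSum _ fun _ _ => continuous_ex _

lemma hasDerivAt_mu (f : (E → Bool) → Bool) (p : ℝ) : HasDerivAt (mu f) (piv f p) p := by
  have key : ∀ e : E, ∀ y : E → Bool,
      HasDerivAt (fun t : ℝ => if y e then t else 1 - t) (if y e then (1:ℝ) else -1) p := by
    intro e y
    cases y e
    · simpa using (hasDerivAt_id p).const_sub (1:ℝ)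
    · exact hasDerivAt_id p
  have h1 : HasDerivAt (mu f) (∑ y : E → Bool, (∑ e,
      (∏ i ∈ univ.erase e, if y i then p else 1 - p) * (if y e then (1:ℝ) else -1)) *
        (if f y then (1:ℝ) else 0)) p := by
    unfold mu ex
    refine HasDerivAt.fun_sum fun y _ => HasDerivAt.mul_const ?_ _
    simpa only [smul_eq_mul] using HasDerivAt.fun_finsetProd (u := univ) fun e _ => key e y
  convert h1 using 1
  simp only [sum_mul]
  rw [sum_comm, piv]
  refine sum_congr rfl fun e _ => ?_

  refine mul_left_cancel₀ (two_ne_zero (α := ℝ)) ?_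
  have c2 : (Fintype.card Bool : ℝ) = 2 := by simp
  rw [← c2, ex, card_mul_sum_eq e, card_mul_sum_eq e]
  refine sum_congr rfl fun y _ => ?_
  have hp : ∀ b, ∏ i ∈ univ.erase e, (if Function.update y e b i then p else 1 - p) =
      ∏ i ∈ univ.erase e, (if y i then p else 1 - p) := fun b =>
    prod_congr rfl fun i hi => by rw [Function.update_of_ne (ne_of_mem_erase hi)]
  simp only [Fintype.sum_bool, Function.update_self, Function.update_idem, hp,
    ← mul_prod_erase univ _ (mem_univ e), if_true, Bool.false_eq_true, if_false]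
  ring

lemma continuous_mu (f : (E → Bool) → Bool) : Continuous (mu f) := continuous_ex _

lemma mu_one {f : (E → Bool) → Bool} (hf : Monotone f) (h1 : ∃ y, f y = true) : mu f 1 = 1 := by
  obtain ⟨y, hy⟩ := h1
  rw [mu, ex, sum_eq_single (fun _ => true)]
  · have : f (fun _ => true) = true := top_le_iff.mp (hy.ge.trans (hf fun _ => le_top))
    simp [this]
  · intro z _ hz
    obtain ⟨e, he⟩ := Function.ne_iff.mp hz
    rw [prod_eq_zero (mem_univ e) (by simp [Bool.eq_false_iff.mpr he]), zero_mul]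
  · simp

theorem width_le (f : (E → Bool) → Bool) (hf : Monotone f) (_h0 : ∃ y, f y = false)
    (h1 : ∃ y, f y = true) {ε κ : ℝ} (hε : 0 < ε) (hε' : ε < 1 / 2) (hκ : 0 < κ)
    (h : ∀ m a : ℕ, a ≤ 2 ^ m → ε / 2 ≤ mu f ((a : ℝ) / 2 ^ m) →
      mu f ((a : ℝ) / 2 ^ m) ≤ 1 - ε / 2 → κ ≤ piv f ((a : ℝ) / 2 ^ m)) :
    pq f (1 - ε) - pq f ε ≤ 1 / κ := by
  have hmono : MonotoneOn (mu f) (Set.Icc 0 1) := by
    refine monotoneOn_of_hasDerivWithinAt_nonneg (convex_Icc 0 1) (continuous_mu f).continuousOn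
      (fun x _ => (hasDerivAt_mu f x).hasDerivWithinAt) fun x hx => ?_
    rw [interior_Icc] at hx
    exact piv_nonneg hf hx.1.le hx.2.le
  have hmem : ∀ a : ℝ, a ≤ 1 → pq f a ∈ {p : ℝ | p ∈ Set.Icc 0 1 ∧ a ≤ mu f p} := by
    intro a ha
    refine IsClosed.csInf_mem ?_ ⟨1, ⟨by norm_num, ?_⟩⟩ ⟨0, fun p hp => hp.1.1⟩
    · exact isClosed_Icc.inter (isClosed_le continuous_const (continuous_mu f))
    · rw [mu_one hf h1]; exact ha
  obtain ⟨hloI, hlo⟩ := hmem ε (by linarith)
  obtain ⟨hhiI, hhi⟩ := hmem (1 - ε) (by linarith)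
  set lo := pq f ε
  set hi := pq f (1 - ε)
  have hbelow : ∀ p ∈ Set.Icc (0:ℝ) 1, p < hi → mu f p < 1 - ε := by
    intro p hp hlt
    by_contra hcon
    have hb : BddBelow {q : ℝ | q ∈ Set.Icc 0 1 ∧ 1 - ε ≤ mu f q} := ⟨0, fun q hq => hq.1.1⟩
    exact absurd (csInf_le hb ⟨hp, not_lt.mp hcon⟩) (not_le.mpr hlt)
  rcases le_or_gt hi lo with hle | hlt
  · exact (sub_nonpos.mpr hle).trans (by positivity)
  have hder : ∀ p ∈ Set.Ioo lo hi, κ ≤ piv f p := by
    intro p hp
    have hpI : p ∈ Set.Icc (0:ℝ) 1 := ⟨hloI.1.trans hp.1.le, hp.2.le.trans hhiI.2⟩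
    have hl : ε ≤ mu f p := hlo.trans (hmono hloI hpI hp.1.le)
    have hu : mu f p < 1 - ε := hbelow p hpI hp.2
    have ht : Filter.Tendsto (fun m : ℕ => (⌊p * 2 ^ m⌋₊ : ℝ) / 2 ^ m) Filter.atTop (nhds p) :=
      (tendsto_nat_floor_mul_div_atTop hpI.1).comp (tendsto_pow_atTop_atTop_of_one_lt one_lt_two)
    refine ge_of_tendsto (((continuous_piv f).tendsto p).comp ht) ?_
    have hev := ((continuous_mu f).tendsto p).comp ht |>.eventually
      (Ioo_mem_nhds (show ε / 2 < mu f p by linarith) (show mu f p < 1 - ε / 2 by linarith))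
    filter_upwards [hev] with m hm
    refine h m _ ?_ hm.1.le hm.2.le
    refine Nat.floor_le_of_le ?_
    push_cast
    exact mul_le_of_le_one_left (by positivity) hpI.2
  have hmvt := Convex.mul_sub_le_image_sub_of_le_deriv (convex_Icc lo hi)
    (continuous_mu f).continuousOn
    (fun x _ => (hasDerivAt_mu f x).differentiableAt.differentiableWithinAt)
    (C := κ) (fun x hx => by
      rw [interior_Icc] at hx
      rw [(hasDerivAt_mu f x).deriv]
      exact hder x hx)
    lo (Set.left_mem_Icc.mpr hlt.le) hi (Set.right_mem_Icc.mpr hlt.le) hlt.le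
  have hup : mu f hi ≤ 1 := (mu_one hf h1) ▸ hmono hhiI (by norm_num) hhiI.2
  rw [le_div_iff₀ hκ, mul_comm]
  linarith

end Vale.Agent.P063
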