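import Mathlib

/-!
# The parameters
-/

namespace Vale.Agent.P063

open Finset

/-- The eighth root of one half. -/
noncomputable def beta : ℝ := (1 / 2 : ℝ) ^ (1 / 8 : ℝ)

lemma beta_pos : 0 < beta := Real.rpow_pos_of_pos (by norm_num) _

lemma beta_pow_eight : beta ^ 8 = 1 / 2 := by
  rw [beta, ← Real.rpow_natCast, ← Real.rpow_mul (by norm_num)]
  norm_num

lemma beta_le : beta ≤ 12 / 13 := by
  refine le_of_pow_le_pow_left₀ (n := 8) (by norm_num) (by norm_num) ?_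
  rw [beta_pow_eight]
  norm_num

lemma beta_four_le : beta ^ 4 ≤ 3 / 4 :=
  (pow_le_pow_left₀ beta_pos.le beta_le 4).trans (by norm_num)

lemma sum_geom_fin_le {a : ℝ} (h0 : 0 ≤ a) (h1 : a < 1) (m : ℕ) :
    ∑ j : Fin m, a ^ (j : ℕ) ≤ 1 / (1 - a) := by
  rw [Fin.sum_univ_eq_sum_range (fun j => a ^ j)]
  rw [one_div, ← tsum_geometric_of_lt_one h0 h1]
  exact (summable_geometric_of_lt_one h0 h1).sum_le_tsum _ fun j _ => pow_nonneg h0 j

lemma sum_beta_le (m : ℕ) : ∑ j : Fin m, beta ^ (j : ℕ) ≤ 13 := by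
  have h := beta_le
  refine (sum_geom_fin_le beta_pos.le (by linarith) m).trans ?_
  rw [div_le_iff₀ (by linarith)]
  linarith

lemma sum_beta_four_le (m : ℕ) : ∑ j : Fin m, beta ^ (4 * (j : ℕ)) ≤ 4 := by
  simp only [pow_mul]
  have h := beta_four_le
  refine (sum_geom_fin_le (pow_nonneg beta_pos.le 4) (by linarith) m).trans ?_
  rw [div_le_iff₀ (by linarith)]
  linarith

lemma sum_half_le (m : ℕ) : ∑ j : Fin m, ((1 : ℝ) / 2) ^ (j : ℕ) ≤ 2 := by
  refine (sum_geom_fin_le (by norm_num) (by norm_num) m).trans ?_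
  norm_num

/-- The exponent `r / (r - 1)` to the power `r - 1`. -/
lemma rpow_expo {r : ℕ} (hr : 2 ≤ r) {L : ℝ} (hL : 0 ≤ L) :
    (L ^ ((r : ℝ) / ((r : ℝ) - 1))) ^ (r - 1) = L ^ r := by
  have h2 : (2 : ℝ) ≤ r := by exact_mod_cast hr
  rw [← Real.rpow_natCast, ← Real.rpow_mul hL, ← Real.rpow_natCast L r]
  congr 1
  rw [Nat.cast_sub (by omega), Nat.cast_one, div_mul_cancel₀]
  linarith

lemma expo_le_two {r : ℕ} (hr : 2 ≤ r) : (r : ℝ) / ((r : ℝ) - 1) ≤ 2 := by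
  have h2 : (2 : ℝ) ≤ r := by exact_mod_cast hr
  rw [div_le_iff₀ (by linarith)]
  linarith

lemma rpow_expo_le_sq {r : ℕ} (hr : 2 ≤ r) {L : ℝ} (hL : 1 ≤ L) :
    L ^ ((r : ℝ) / ((r : ℝ) - 1)) ≤ L ^ 2 := by
  rw [← Real.rpow_two]
  exact Real.rpow_le_rpow_of_exponent_le hL (expo_le_two hr)

theorem exists_param {r : ℕ} (hr : 2 ≤ r) : ∃ ζ : ℝ, 0 < ζ ∧ ζ ≤ 1 ∧
    ∀ L w u b : ℝ, 1 ≤ L → 0 ≤ w → w ^ 4 ≤ ζ * L ^ ((r : ℝ) / ((r : ℝ) - 1)) → 1 ≤ u →
      u ^ 4 ≤ 4 * w ^ 4 → 1 ≤ b → b ^ r = u ^ 4 → ∀ k d : ℕ, (k : ℝ) ≤ 26 * u ^ 3 * w →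
        (d : ℝ) ≤ 20000 * r ^ 2 * b * w / u →
          d * (1 + 3 * d + 24 * Real.log L) + 3 * k ≤ b * L / 32 := by
  set C : ℝ := 20000 * (r : ℝ) ^ 2 with hC
  have hC0 : 0 ≤ C := by positivity
  set z : ℝ := 1 / (32 * (49 * C + 3 * C ^ 2 + 624)) with hz
  have hz0 : 0 < z := by positivity
  have hz1 : z ≤ 1 := by
    rw [hz, div_le_one (by positivity)]
    nlinarith
  refine ⟨z ^ 4, by positivity, pow_le_one₀ hz0.le hz1, ?_⟩
  intro L w u b hL hw hwK hu huw hb hbu k d hk hd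
  have hL0 : 0 ≤ L := by linarith
  have hbu2 : b ≤ u ^ 2 := by
    refine le_of_pow_le_pow_left₀ two_ne_zero (by positivity) ?_
    calc b ^ 2 ≤ b ^ r := pow_le_pow_right₀ hb hr
      _ = (u ^ 2) ^ 2 := by rw [hbu]; ring
  have hu2w : u ≤ 2 * w := by
    refine le_of_pow_le_pow_left₀ (n := 4) (by norm_num) (by linarith) ?_
    rw [mul_pow]
    have : 0 ≤ w ^ 4 := pow_nonneg hw 4
    nlinarith
  have hwL : w ≤ z * Real.sqrt L := by
    refine le_of_pow_le_pow_left₀ (n := 4) (by norm_num) (by positivity) (hwK.trans ?_)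
    rw [mul_pow, show Real.sqrt L ^ 4 = (Real.sqrt L ^ 2) ^ 2 by ring, Real.sq_sqrt hL0]
    exact mul_le_mul_of_nonneg_left (rpow_expo_le_sq hr hL) (by positivity)
  have hX1 : u ^ 3 * w ≤ 8 * z * b * L := by
    refine le_of_pow_le_pow_left₀ (n := r) (by omega) (by positivity) ?_
    have h1 : w ^ (4 * (r - 1)) ≤ z ^ r * L ^ r := by
      rw [pow_mul]
      refine (pow_le_pow_left₀ (by positivity) hwK _).trans ?_
      rw [mul_pow, rpow_expo hr hL0, ← pow_mul]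
      exact mul_le_mul_of_nonneg_right (pow_le_pow_of_le_one hz0.le hz1 (by omega)) (by positivity)
    have h2 : u ^ (3 * r - 4) ≤ (2 * w) ^ (3 * r - 4) := pow_le_pow_left₀ (by linarith) hu2w _
    calc (u ^ 3 * w) ^ r = u ^ 4 * (u ^ (3 * r - 4) * w ^ r) := by
          rw [mul_pow, ← pow_mul, ← mul_assoc, ← pow_add]
          congr 2
          omega
      _ ≤ u ^ 4 * ((2 * w) ^ (3 * r - 4) * w ^ r) := by
          gcongr
      _ = u ^ 4 * (2 ^ (3 * r - 4) * w ^ (4 * (r - 1))) := by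
          rw [mul_pow, mul_assoc ((2:ℝ) ^ _), ← pow_add]
          congr 3
          omega
      _ ≤ u ^ 4 * (8 ^ r * (z ^ r * L ^ r)) := by
          refine mul_le_mul_of_nonneg_left (mul_le_mul ?_ h1 (by positivity) (by positivity))
            (by positivity)
          rw [show (8:ℝ) ^ r = 2 ^ (3 * r) by rw [pow_mul]; norm_num]
          exact pow_le_pow_right₀ (by norm_num) (by omega)
      _ = (8 * z * b * L) ^ r := by
          rw [mul_pow, mul_pow, mul_pow, hbu]; ring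
  have hd1 : (d : ℝ) ≤ C * b * w := hd.trans <| by
    rw [div_le_iff₀ (by linarith)]
    exact le_mul_of_one_le_right (by positivity) hu
  have hd0 : (0:ℝ) ≤ d := Nat.cast_nonneg d
  have hX2 : (d : ℝ) * d ≤ C ^ 2 * z * b * L := by
    have h1 : (d : ℝ) * d ≤ (C * b * w / u) * (C * b * w / u) :=
      mul_le_mul hd hd hd0 (by positivity)
    refine h1.trans ?_
    rw [div_mul_div_comm, div_le_iff₀ (by positivity)]
    have h2 : w * w ≤ z * L := by
      refine (mul_le_mul hwL hwL hw (by positivity)).trans ?_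
      rw [show z * Real.sqrt L * (z * Real.sqrt L) = z * z * (Real.sqrt L * Real.sqrt L) by ring,
        Real.mul_self_sqrt hL0]
      exact mul_le_mul_of_nonneg_right (mul_le_of_le_one_left hz0.le hz1) hL0
    calc C * b * w * (C * b * w) = C ^ 2 * b * (b * (w * w)) := by ring
      _ ≤ C ^ 2 * b * (u ^ 2 * (z * L)) :=
          mul_le_mul_of_nonneg_left (mul_le_mul hbu2 h2 (by positivity) (by positivity))
            (by positivity)
      _ = C ^ 2 * z * b * L * (u * u) := by ring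
  have hX3 : (d : ℝ) * (1 + 24 * Real.log L) ≤ 49 * C * z * b * L := by
    have hs : 1 ≤ Real.sqrt L := Real.one_le_sqrt.mpr hL
    have hlog : Real.log L ≤ 2 * Real.sqrt L := by
      have h := Real.log_le_sub_one_of_pos (show 0 < Real.sqrt L by linarith)
      rw [Real.log_sqrt hL0] at h
      linarith
    calc (d : ℝ) * (1 + 24 * Real.log L) ≤ C * b * (z * Real.sqrt L) * (49 * Real.sqrt L) := by
          refine mul_le_mul (hd1.trans (mul_le_mul_of_nonneg_left hwL (by positivity))) (by linarith)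
            (by nlinarith [Real.log_nonneg hL]) (by positivity)
      _ = 49 * C * z * b * (Real.sqrt L * Real.sqrt L) := by ring
      _ = 49 * C * z * b * L := by rw [Real.mul_self_sqrt hL0]
  have hfin : (49 * C + 3 * C ^ 2 + 624) * z = 1 / 32 := by
    rw [hz]; field_simp
  have hbl : 0 ≤ b * L := by positivity
  calc (d : ℝ) * (1 + 3 * d + 24 * Real.log L) + 3 * k
      = (d : ℝ) * (1 + 24 * Real.log L) + 3 * ((d : ℝ) * d) + 3 * k := by ring
    _ ≤ 49 * C * z * b * L + 3 * (C ^ 2 * z * b * L) + 78 * (8 * z * b * L) := by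
        nlinarith
    _ = (49 * C + 3 * C ^ 2 + 624) * z * (b * L) := by ring
    _ = b * L / 32 := by rw [hfin]; ring

lemma exp_half_bound (d k : ℕ) {L b : ℝ} (hL : 1 ≤ L)
    (h : (d : ℝ) * (1 + 3 * d + 24 * Real.log L) + 3 * k ≤ b * L / 32) :
    (L ^ 8 / ((3 ^ d * L ^ 8) ^ 2)⁻¹ + 1) ^ d * 9 ^ k * (2 ^ k * Real.exp (-(L * b / 16))) ≤
      Real.exp (-(b * L / 32)) := by
  have hL0 : 0 < L := by linarith
  have e1 : L ^ 8 / ((3 ^ d * L ^ 8) ^ 2)⁻¹ + 1 ≤
      Real.exp (1 + 3 * d + 24 * Real.log L) := by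
    rw [div_inv_eq_mul, Real.exp_add, Real.exp_add,
      show (24:ℝ) * Real.log L = ((24:ℕ):ℝ) * Real.log L by norm_num, Real.exp_nat_mul,
      Real.exp_log hL0, show (3:ℝ) * d = (d:ℝ) * 3 by ring, Real.exp_nat_mul]
    have h1 : (2:ℝ) ≤ Real.exp 1 := by linarith [Real.add_one_le_exp (1:ℝ)]
    have h3 : (9:ℝ) ≤ Real.exp 3 := by
      have h4 : (2:ℝ) ^ 3 * (9 / 8) ≤ Real.exp 1 ^ 3 := by
        have h5 : (5:ℝ) / 2 ≤ Real.exp 1 := by linarith [Real.exp_one_gt_d9]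
        exact (by norm_num : (2:ℝ) ^ 3 * (9 / 8) ≤ (5 / 2) ^ 3).trans
          (pow_le_pow_left₀ (by norm_num) h5 3)
      rw [← Real.exp_nat_mul] at h4
      norm_num at h4
      exact h4
    have hpow : (9:ℝ) ^ d ≤ Real.exp 3 ^ d := pow_le_pow_left₀ (by norm_num) h3 d
    have hA : 1 ≤ 9 ^ d * L ^ 24 :=
      one_le_mul_of_one_le_of_one_le (one_le_pow₀ (by norm_num)) (one_le_pow₀ hL)
    calc L ^ 8 * (3 ^ d * L ^ 8) ^ 2 + 1 = (3 ^ 2) ^ d * L ^ 24 + 1 := by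
          rw [← pow_mul (3:ℝ), mul_comm 2 d, pow_mul]; ring
      _ ≤ 2 * (9 ^ d * L ^ 24) := by norm_num; linarith
      _ ≤ Real.exp 1 * (Real.exp 3 ^ d * L ^ 24) :=
          mul_le_mul h1 (mul_le_mul_of_nonneg_right hpow (by positivity)) (by positivity)
            (Real.exp_pos 1).le
      _ = _ := (mul_assoc _ _ _).symm
  have e2 : (9:ℝ) ^ k * 2 ^ k ≤ Real.exp (3 * k) := by
    rw [← mul_pow, show (3:ℝ) * k = (k:ℝ) * 3 by ring, Real.exp_nat_mul]
    refine pow_le_pow_left₀ (by norm_num) ?_ k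
    have h1 : (27:ℝ) / 10 ≤ Real.exp 1 := by linarith [Real.exp_one_gt_d9]
    calc (9:ℝ) * 2 ≤ (27 / 10) ^ 3 := by norm_num
      _ ≤ Real.exp 1 ^ 3 := pow_le_pow_left₀ (by norm_num) h1 3
      _ = Real.exp 3 := by rw [← Real.exp_nat_mul]; norm_num
  calc _ = (L ^ 8 / ((3 ^ d * L ^ 8) ^ 2)⁻¹ + 1) ^ d * (9 ^ k * 2 ^ k) *
        Real.exp (-(L * b / 16)) := by ring
    _ ≤ Real.exp (1 + 3 * d + 24 * Real.log L) ^ d * Real.exp (3 * k) *
        Real.exp (-(L * b / 16)) := by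
      refine mul_le_mul_of_nonneg_right ?_ (Real.exp_pos _).le
      exact mul_le_mul (pow_le_pow_left₀ (by positivity) e1 d) e2 (by positivity) (by positivity)
    _ = Real.exp ((d : ℝ) * (1 + 3 * d + 24 * Real.log L) + 3 * k + -(L * b / 16)) := by
      rw [← Real.exp_nat_mul, ← Real.exp_add, ← Real.exp_add]
    _ ≤ _ := Real.exp_le_exp.mpr (by nlinarith)

lemma exp_neg_small {L b : ℝ} (hL : 1 ≤ L) (hb : 1 ≤ b) :
    Real.exp (-(b * L / 128)) ≤ 6 * 128 ^ 3 / L ^ 3 := by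
  have h : (L / 128) ^ 3 / (Nat.factorial 3 : ℝ) ≤ Real.exp (L / 128) :=
    Real.pow_div_factorial_le_exp _ (by linarith) 3
  have h2 : Real.exp (-(b * L / 128)) ≤ Real.exp (-(L / 128)) :=
    Real.exp_le_exp.mpr (by nlinarith)
  refine h2.trans ?_
  rw [Real.exp_neg, ← one_div, div_le_div_iff₀ (Real.exp_pos _) (by positivity)]
  norm_num [Nat.factorial] at h
  nlinarith

end Vale.Agent.P063
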