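import Mathlib

/-!
# A random sparse set of edges keeps the vertices
-/

namespace Vale.Agent.P063

open Finset

section Random

variable {E : Type} [Fintype E] [DecidableEq E]

/-- The law of a random set containing each point independently with probability `ρ`. -/
private def wgt (ρ : ℝ) (R : Finset E) : ℝ :=
  (∏ _i ∈ R, ρ) * ∏ _i ∈ univ \ R, (1 - ρ)

/-- Expectation under this law. -/
private def EX (ρ : ℝ) (f : Finset E → ℝ) : ℝ := ∑ R, wgt ρ R * f R

private lemma wgt_nonneg {ρ : ℝ} (h0 : 0 ≤ ρ) (h1 : ρ ≤ 1) (R : Finset E) : 0 ≤ wgt ρ R :=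
  mul_nonneg (prod_nonneg fun _ _ => h0) (prod_nonneg fun _ _ => sub_nonneg.2 h1)

private lemma sum_prod_split (a b : E → ℝ) :
    ∑ R : Finset E, (∏ i ∈ R, a i) * ∏ i ∈ univ \ R, b i = ∏ i, (a i + b i) := by
  rw [prod_add, powerset_univ]

private lemma EX_one (ρ : ℝ) : EX (E := E) ρ (fun _ => 1) = 1 := by
  simp only [EX, mul_one, wgt]
  rw [sum_prod_split]
  simp

private lemma EX_subset (ρ : ℝ) (F : Finset E) :
    EX ρ (fun R => if F ⊆ R then 1 else 0) = ρ ^ F.card := by
  have h := sum_prod_split (fun _ : E => ρ) (fun i => if i ∈ F then 0 else 1 - ρ)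
  have hr : ∏ i, (ρ + if i ∈ F then 0 else 1 - ρ) = ρ ^ F.card := by
    rw [← prod_const, ← prod_subset (subset_univ F) (fun i _ hi => by simp [hi])]
    exact prod_congr rfl fun i hi => by simp [hi]
  rw [← hr, ← h, EX]
  refine sum_congr rfl fun R _ => ?_
  by_cases hR : F ⊆ R
  · rw [if_pos hR, mul_one, wgt]
    congr 1
    refine prod_congr rfl fun i hi => ?_
    rw [if_neg fun hF => (mem_sdiff.1 hi).2 (hR hF)]
  · obtain ⟨i, hi, hi'⟩ := not_subset.1 hR
    rw [if_neg hR, mul_zero, prod_eq_zero (mem_sdiff.2 ⟨mem_univ i, hi'⟩)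
      (show (if i ∈ F then (0 : ℝ) else 1 - ρ) = 0 from if_pos hi), mul_zero]

private lemma EX_disjoint (ρ : ℝ) (F : Finset E) :
    EX ρ (fun R => if Disjoint F R then 1 else 0) = (1 - ρ) ^ F.card := by
  have h := sum_prod_split (fun i : E => if i ∈ F then 0 else ρ) (fun _ => 1 - ρ)
  have hr : ∏ i, ((if i ∈ F then 0 else ρ) + (1 - ρ)) = (1 - ρ) ^ F.card := by
    rw [← prod_const, ← prod_subset (subset_univ F) (fun i _ hi => by simp [hi])]
    exact prod_congr rfl fun i hi => by simp [hi]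
  rw [← hr, ← h, EX]
  refine sum_congr rfl fun R _ => ?_
  by_cases hR : Disjoint F R
  · rw [if_pos hR, mul_one, wgt]
    congr 1
    refine prod_congr rfl fun i hi => ?_
    rw [if_neg fun hF => disjoint_left.1 hR hF hi]
  · obtain ⟨i, hi, hi'⟩ := not_disjoint_iff.1 hR
    rw [if_neg hR, mul_zero, prod_eq_zero hi'
      (show (if i ∈ F then (0 : ℝ) else ρ) = 0 from if_pos hi), zero_mul]

private lemma EX_mono {ρ : ℝ} (h0 : 0 ≤ ρ) (h1 : ρ ≤ 1) {f g : Finset E → ℝ}
    (h : ∀ R, f R ≤ g R) : EX ρ f ≤ EX ρ g :=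
  sum_le_sum fun R _ => mul_le_mul_of_nonneg_left (h R) (wgt_nonneg h0 h1 R)

private lemma EX_add (ρ : ℝ) (f g : Finset E → ℝ) :
    EX ρ (fun R => f R + g R) = EX ρ f + EX ρ g := by
  simp [EX, mul_add, sum_add_distrib]

private lemma EX_sub (ρ : ℝ) (f g : Finset E → ℝ) :
    EX ρ (fun R => f R - g R) = EX ρ f - EX ρ g := by
  simp [EX, mul_sub, sum_sub_distrib]

private lemma EX_mul_left (ρ c : ℝ) (f : Finset E → ℝ) :
    EX ρ (fun R => c * f R) = c * EX ρ f := by
  simp [EX, mul_sum, mul_left_comm]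

private lemma EX_sum {ι : Type*} (ρ : ℝ) (s : Finset ι) (f : ι → Finset E → ℝ) :
    EX ρ (fun R => ∑ i ∈ s, f i R) = ∑ i ∈ s, EX ρ (f i) := by
  simp only [EX, mul_sum]
  exact sum_comm

private lemma EX_const (ρ c : ℝ) : EX (E := E) ρ (fun _ => c) = c := by
  have := EX_mul_left (E := E) ρ c (fun _ => 1)
  simpa [EX_one] using this

private lemma half_min_le {ρ : ℝ} (hρ : 0 ≤ ρ) (h1 : ρ ≤ 1) (d : ℕ) :
    min 1 (ρ * d) / 2 ≤ 1 - (1 - ρ) ^ d := by
  have hpow : (1 - ρ) ^ d ≤ Real.exp (-(ρ * d)) := by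
    rw [show -(ρ * d) = (d : ℝ) * (-ρ) by ring, Real.exp_nat_mul]
    exact pow_le_pow_left₀ (sub_nonneg.2 h1) (by linarith [Real.add_one_le_exp (-ρ)]) d
  have h0 : (1 - ρ) ^ d * Real.exp (ρ * d) ≤ 1 := by
    refine (mul_le_mul_of_nonneg_right hpow (Real.exp_pos _).le).trans ?_
    rw [← Real.exp_add, neg_add_cancel, Real.exp_zero]
  have h2 : (1 - ρ) ^ d * (ρ * d + 1) ≤ 1 :=
    (mul_le_mul_of_nonneg_left (Real.add_one_le_exp _) (pow_nonneg (sub_nonneg.2 h1) d)).trans h0
  have hz : (1 - ρ) ^ d ≥ 0 := pow_nonneg (sub_nonneg.2 h1) d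
  by_cases h : 1 ≤ ρ * d
  · rw [min_eq_left h]
    nlinarith
  · rw [min_eq_right (le_of_not_ge h)]
    have ht : 0 ≤ ρ * d := by positivity
    nlinarith [le_of_not_ge h, mul_nonneg ht (sub_nonneg.2 (le_of_not_ge h))]

/-- The number of vertices kept by a random edge set is often large. -/
private lemma prob_many_vertices {α : Type} [DecidableEq α] (vert : E → Finset α) {r : ℕ}
    (hr : 1 ≤ r) (hv : ∀ e, (vert e).card = r) (hinj : Function.Injective vert) {E0 b : ℝ}
    (hb : 1 ≤ b) (hbE : b ≤ E0) (hbr : b ^ r ≤ E0) (es : Finset E)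
    (hlo : E0 ≤ (es.card : ℝ)) (hhi : (es.card : ℝ) ≤ 2 * E0) :
    1 / (384 * (r : ℝ) ^ 2) ≤ EX (b / E0)
      (fun R => if b / 8 ≤ (((es ∩ R).biUnion vert).card : ℝ) then 1 else 0) := by
  set ρ := b / E0 with hρ
  have hb0 : 0 < b := by linarith
  have hE0 : 0 < E0 := by linarith
  have h0 : 0 ≤ ρ := by positivity
  have h1 : ρ ≤ 1 := (div_le_one hE0).2 hbE
  have hρE : ρ * E0 = b := div_mul_cancel₀ b hE0.ne'
  have hr' : (1 : ℝ) ≤ r := by exact_mod_cast hr
  set V := es.biUnion vert with hV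
  set Fx : α → Finset E := fun x => es.filter fun e => x ∈ vert e with hFx
  set v : Finset E → ℝ := fun R => (((es ∩ R).biUnion vert).card : ℝ) with hvdef
  have hvsum : ∀ R, v R = ∑ x ∈ V, (1 - if Disjoint (Fx x) R then (1 : ℝ) else 0) := by
    intro R
    have : (es ∩ R).biUnion vert = V.filter fun x => ¬Disjoint (Fx x) R := by
      ext x
      simp only [hV, hFx, mem_biUnion, mem_inter, mem_filter, not_disjoint_iff]
      constructor
      · rintro ⟨e, ⟨he, heR⟩, hx⟩
        exact ⟨⟨e, he, hx⟩, e, ⟨he, hx⟩, heR⟩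
      · rintro ⟨-, e, ⟨he, hx⟩, heR⟩
        exact ⟨e, ⟨he, heR⟩, hx⟩
    simp only [hvdef, this]
    rw [← sum_boole]
    exact sum_congr rfl fun x _ => by split_ifs <;> norm_num
  -- the first moment
  have hEv : b / 4 ≤ EX ρ v := by
    have e : EX ρ v = ∑ x ∈ V, (1 - (1 - ρ) ^ (Fx x).card) := by
      rw [show v = fun R => ∑ x ∈ V, (1 - if Disjoint (Fx x) R then (1 : ℝ) else 0) from
        funext hvsum, EX_sum]
      simp [EX_sub, EX_const, EX_disjoint]
    rw [e]
    refine le_trans ?_ (sum_le_sum fun x _ => half_min_le h0 h1 (Fx x).card)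
    rw [← sum_div, le_div_iff₀ two_pos]
    set H := V.filter fun x => 1 ≤ ρ * ((Fx x).card : ℝ) with hH
    have hnn : ∀ x ∈ V, (0 : ℝ) ≤ min 1 (ρ * ((Fx x).card : ℝ)) := fun x _ =>
      le_min zero_le_one (by positivity)
    by_cases hbig : b / 2 ≤ (H.card : ℝ)
    · calc b / 4 * 2 ≤ (H.card : ℝ) := by linarith
        _ = ∑ x ∈ H, min 1 (ρ * ((Fx x).card : ℝ)) := by
          rw [sum_congr rfl fun x hx => min_eq_left (mem_filter.1 hx).2]
          simp [hH]
        _ ≤ _ := sum_le_sum_of_subset_of_nonneg (filter_subset _ _) fun x hx _ => hnn x hx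
    · set L := V.filter fun x => ¬(1 ≤ ρ * ((Fx x).card : ℝ)) with hL
      have hsplit : es ⊆ (es.filter fun e => vert e ⊆ H) ∪ L.biUnion Fx := by
        intro e he
        by_cases hs : vert e ⊆ H
        · exact mem_union_left _ (mem_filter.2 ⟨he, hs⟩)
        · obtain ⟨x, hx, hxH⟩ := not_subset.1 hs
          have hxV : x ∈ V := mem_biUnion.2 ⟨e, he, hx⟩
          refine mem_union_right _ (mem_biUnion.2 ⟨x, mem_filter.2 ⟨hxV, fun hh =>
            hxH (mem_filter.2 ⟨hxV, hh⟩)⟩, mem_filter.2 ⟨he, hx⟩⟩)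
      have hin : ((es.filter fun e => vert e ⊆ H).card : ℝ) ≤ E0 / 2 := by
        have h1 : (es.filter fun e => vert e ⊆ H).card ≤ H.card ^ r := by
          rw [← card_image_of_injective _ hinj]
          refine (card_le_card fun s hs => ?_).trans
            ((card_powersetCard r H).le.trans (Nat.choose_le_pow _ _))
          obtain ⟨e, he, rfl⟩ := mem_image.1 hs
          exact mem_powersetCard.2 ⟨(mem_filter.1 he).2, hv e⟩
        calc ((es.filter fun e => vert e ⊆ H).card : ℝ) ≤ ((H.card : ℕ) : ℝ) ^ r := by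
              exact_mod_cast h1
          _ ≤ (b / 2) ^ r := pow_le_pow_left₀ (Nat.cast_nonneg _) (le_of_not_ge hbig) r
          _ = b ^ r / 2 ^ r := div_pow _ _ _
          _ ≤ E0 / 2 := by
              refine div_le_div₀ hE0.le hbr two_pos ?_
              calc (2 : ℝ) = 2 ^ 1 := (pow_one 2).symm
                _ ≤ 2 ^ r := pow_le_pow_right₀ (by norm_num) hr
      have hcard : (es.card : ℝ) ≤ ((es.filter fun e => vert e ⊆ H).card : ℝ) +
          ∑ x ∈ L, ((Fx x).card : ℝ) := by
        have := (card_le_card hsplit).trans ((card_union_le _ _).trans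
          (Nat.add_le_add_left card_biUnion_le _))
        exact_mod_cast this
      calc b / 4 * 2 ≤ ρ * ∑ x ∈ L, ((Fx x).card : ℝ) := by
            have : E0 / 2 ≤ ∑ x ∈ L, ((Fx x).card : ℝ) := by linarith
            have := mul_le_mul_of_nonneg_left this h0
            linarith
        _ = ∑ x ∈ L, min 1 (ρ * ((Fx x).card : ℝ)) := by
          rw [mul_sum]
          exact sum_congr rfl fun x hx =>
            (min_eq_right (le_of_not_ge (mem_filter.1 hx).2)).symm
        _ ≤ _ := sum_le_sum_of_subset_of_nonneg (filter_subset _ _) fun x hx _ => hnn x hx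
  -- the second moment
  have hEv2 : EX ρ (fun R => v R ^ 2) ≤ 6 * r ^ 2 * b ^ 2 := by
    have hm : ρ * es.card ≤ 2 * b := by
      have := mul_le_mul_of_nonneg_left hhi h0
      linarith
    calc EX ρ (fun R => v R ^ 2)
        ≤ EX ρ (fun R => (r : ℝ) ^ 2 *
            ∑ e ∈ es, ∑ f ∈ es, if ({e, f} : Finset E) ⊆ R then (1 : ℝ) else 0) := by
          refine EX_mono h0 h1 fun R => ?_
          have h2 : v R ≤ r * ((es ∩ R).card : ℝ) := by
            have := card_biUnion_le_card_mul (es ∩ R) vert r fun e _ => (hv e).le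
            rw [mul_comm]
            simp only [hvdef]
            exact_mod_cast this
          have h3 : ((es ∩ R).card : ℝ) ^ 2 =
              ∑ e ∈ es, ∑ f ∈ es, if ({e, f} : Finset E) ⊆ R then (1 : ℝ) else 0 := by
            rw [← filter_mem_eq_inter, ← sum_boole, sq, sum_mul_sum]
            refine sum_congr rfl fun e _ => sum_congr rfl fun f _ => ?_
            by_cases he : e ∈ R <;> by_cases hf : f ∈ R <;> simp [he, hf, insert_subset_iff]
          rw [← h3, ← mul_pow]
          exact pow_le_pow_left₀ (Nat.cast_nonneg _) h2 2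
      _ = (r : ℝ) ^ 2 * ∑ e ∈ es, ∑ f ∈ es, ρ ^ ({e, f} : Finset E).card := by
          simp only [EX_mul_left, EX_sum, EX_subset]
      _ ≤ (r : ℝ) ^ 2 * ∑ e ∈ es, (ρ + ρ ^ 2 * es.card) := by
          refine mul_le_mul_of_nonneg_left (sum_le_sum fun e he => ?_) (by positivity)
          rw [← sum_erase_add es _ he, insert_eq_of_mem (mem_singleton_self e), card_singleton,
            pow_one, add_comm]
          refine add_le_add le_rfl ((sum_le_card_nsmul _ _ (ρ ^ 2) fun f hf => ?_).trans ?_)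
          · rw [card_pair (ne_of_mem_erase hf).symm]
          · rw [nsmul_eq_mul, mul_comm]
            refine mul_le_mul_of_nonneg_left ?_ (by positivity)
            exact_mod_cast card_erase_le
      _ = (r : ℝ) ^ 2 * (ρ * es.card + (ρ * es.card) ^ 2) := by
          rw [sum_const, nsmul_eq_mul]; ring
      _ ≤ (r : ℝ) ^ 2 * (2 * b + (2 * b) ^ 2) :=
          mul_le_mul_of_nonneg_left
            (add_le_add hm (pow_le_pow_left₀ (by positivity) hm 2)) (by positivity)
      _ ≤ 6 * r ^ 2 * b ^ 2 := by nlinarith [mul_nonneg hb0.le (sub_nonneg.2 hb)]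
  -- Paley-Zygmund
  set G : Finset E → ℝ := fun R => if b / 8 ≤ v R then 1 else 0 with hG
  set s : ℝ := 48 * r ^ 2 * b with hs
  have hs0 : 0 < s := by positivity
  have key : EX ρ v ≤ b / 8 + (1 / (2 * s) * EX ρ (fun R => v R ^ 2) + s / 2 * EX ρ G) := by
    have := EX_mono h0 h1 (f := v)
      (g := fun R => b / 8 + (1 / (2 * s) * v R ^ 2 + s / 2 * G R)) fun R => by
        simp only [hG]
        by_cases hR : b / 8 ≤ v R
        · rw [if_pos hR, mul_one]
          have : v R ≤ 1 / (2 * s) * v R ^ 2 + s / 2 := by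
            rw [one_div_mul_eq_div, ← sub_nonneg]
            have e : v R ^ 2 / (2 * s) + s / 2 - v R = (v R - s) ^ 2 / (2 * s) := by
              field_simp; ring
            rw [e]; positivity
          linarith
        · rw [if_neg hR, mul_zero, add_zero]
          have : 0 ≤ 1 / (2 * s) * v R ^ 2 := by positivity
          linarith [le_of_not_ge hR]
    simpa [EX_add, EX_const, EX_mul_left] using this
  have h16 : 1 / (2 * s) * EX ρ (fun R => v R ^ 2) ≤ b / 16 := by
    rw [one_div_mul_eq_div, div_le_div_iff₀ (by positivity) (by norm_num)]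
    calc EX ρ (fun R => v R ^ 2) * 16 ≤ 6 * r ^ 2 * b ^ 2 * 16 := by linarith
      _ = b * (2 * s) := by rw [hs]; ring
  have h17 : b / 16 ≤ s / 2 * EX ρ G := by linarith
  show 1 / (384 * (r : ℝ) ^ 2) ≤ EX ρ G
  rw [div_le_iff₀ (by positivity)]
  nlinarith

end Random

theorem exists_sample {E κ α : Type} [Fintype E] [DecidableEq E] [Fintype κ] [DecidableEq κ]
    [DecidableEq α] (vert : E → Finset α) (r : ℕ) (hr : 1 ≤ r) (hv : ∀ e, (vert e).card = r)
    (hinj : Function.Injective vert) {E0 b : ℝ} (hb : 1 ≤ b) (hbE : b ≤ E0) (hbr : b ^ r ≤ E0)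
    (B : Finset (Finset (E × κ))) (w : Finset (E × κ) → ℝ) (hw : ∀ S ∈ B, 0 ≤ w S) (k : ℕ)
    (hlo : ∀ S ∈ B, E0 ≤ ((S.image Prod.fst).card : ℝ))
    (hhi : ∀ S ∈ B, ((S.image Prod.fst).card : ℝ) ≤ 2 * E0) (hk : ∀ S ∈ B, S.card ≤ k) :
    ∃ R : Finset E, (∑ S ∈ B, w S) / (768 * r ^ 2) ≤
      ∑ S ∈ B.filter (fun S => b / 8 ≤ ((((S.image Prod.fst) ∩ R).biUnion vert).card : ℝ) ∧
        ((S.filter (fun c => c.1 ∈ R)).card : ℝ) ≤ 768 * r ^ 2 * (b / E0 * k)), w S := by
  classical
  set ρ := b / E0 with hρ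
  have hb0 : 0 < b := by linarith
  have hE0 : 0 < E0 := by linarith
  have h0 : 0 < ρ := by positivity
  have h1 : ρ ≤ 1 := (div_le_one hE0).2 hbE
  set good : Finset E → Finset (E × κ) → Prop := fun R S =>
    b / 8 ≤ ((((S.image Prod.fst) ∩ R).biUnion vert).card : ℝ) ∧
      ((S.filter (fun c => c.1 ∈ R)).card : ℝ) ≤ 768 * r ^ 2 * (ρ * k) with hgood
  -- each member of the band is often good
  have hone : ∀ S ∈ B, 1 / (768 * (r : ℝ) ^ 2) ≤
      EX ρ (fun R => if good R S then 1 else 0) := by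
    intro S hS
    have hP := prob_many_vertices vert hr hv hinj hb hbE hbr _ (hlo S hS) (hhi S hS)
    rw [← hρ] at hP
    have hbad : EX ρ (fun R => if 768 * r ^ 2 * (ρ * k) < ((S.filter (fun c => c.1 ∈ R)).card : ℝ)
        then (1 : ℝ) else 0) ≤ 1 / (768 * (r : ℝ) ^ 2) := by
      rcases Nat.eq_zero_or_pos k with rfl | hk0
      · refine le_trans (EX_mono h0.le h1 (g := fun _ => 0) fun R => ?_) (by
          rw [EX_const]; positivity)
        have : (S.filter (fun c => c.1 ∈ R)).card = 0 :=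
          Nat.le_zero.1 ((card_filter_le _ _).trans (hk S hS))
        simp [this]
      · set d : ℝ := 768 * r ^ 2 * (ρ * k) with hd
        have hd0 : 0 < d := by
          have : (0 : ℝ) < k := by exact_mod_cast hk0
          have : (1 : ℝ) ≤ r := by exact_mod_cast hr
          positivity
        refine le_trans (EX_mono h0.le h1
          (g := fun R => 1 / d * ∑ c ∈ S, if ({c.1} : Finset E) ⊆ R then (1 : ℝ) else 0)
          fun R => ?_) ?_
        · have e : (∑ c ∈ S, if ({c.1} : Finset E) ⊆ R then (1 : ℝ) else 0)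
              = ((S.filter (fun c => c.1 ∈ R)).card : ℝ) := by
            rw [← sum_boole]; exact sum_congr rfl fun c _ => by simp
          rw [e, one_div_mul_eq_div]
          split_ifs with h
          · rw [one_le_div hd0]; exact h.le
          · positivity
        · simp only [EX_mul_left, EX_sum, EX_subset, card_singleton, pow_one, sum_const,
            nsmul_eq_mul]
          rw [one_div_mul_eq_div, div_le_div_iff₀ hd0 (by positivity), one_mul, hd]
          have : (S.card : ℝ) ≤ k := by exact_mod_cast hk S hS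
          have := mul_le_mul_of_nonneg_right this h0.le
          nlinarith [sq_nonneg (r : ℝ)]
    have hsub : EX ρ (fun R =>
        (if b / 8 ≤ ((((S.image Prod.fst) ∩ R).biUnion vert).card : ℝ) then (1 : ℝ) else 0) -
        if 768 * r ^ 2 * (ρ * k) < ((S.filter (fun c => c.1 ∈ R)).card : ℝ) then 1 else 0)
        ≤ EX ρ (fun R => if good R S then 1 else 0) := EX_mono h0.le h1 fun R => by
      simp only [hgood]
      split_ifs with ha hb' hc hd' <;>
        first | linarith | exact absurd ⟨ha, not_lt.1 hb'⟩ hd'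
    rw [EX_sub] at hsub
    have e : 1 / (384 * (r : ℝ) ^ 2) = 2 * (1 / (768 * (r : ℝ) ^ 2)) := by ring
    linarith
  have hsum : (∑ S ∈ B, w S) / (768 * r ^ 2) ≤
      EX ρ (fun R => ∑ S ∈ B.filter (good R), w S) := by
    have e : (fun R => ∑ S ∈ B.filter (good R), w S)
        = fun R => ∑ S ∈ B, w S * if good R S then (1 : ℝ) else 0 :=
      funext fun R => by simp [sum_filter]
    rw [e, EX_sum, sum_div]
    refine sum_le_sum fun S hS => ?_
    rw [EX_mul_left, div_eq_mul_one_div]
    exact mul_le_mul_of_nonneg_left (hone S hS) (hw S hS)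
  by_contra hcon
  push Not at hcon
  have hlt : EX ρ (fun R => ∑ S ∈ B.filter (good R), w S) <
      EX (E := E) ρ (fun _ => (∑ S ∈ B, w S) / (768 * r ^ 2)) := by
    have hpos : ∃ R : Finset E, 0 < wgt ρ R := by
      by_contra h
      push Not at h
      have := EX_one (E := E) ρ
      have hle : EX (E := E) ρ (fun _ => 1) ≤ 0 :=
        sum_nonpos fun R _ => by simpa using h R
      linarith
    obtain ⟨R0, hR0⟩ := hpos
    exact sum_lt_sum (fun R _ => mul_le_mul_of_nonneg_left (hcon R).le (wgt_nonneg h0.le h1 R))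
      ⟨R0, mem_univ _, mul_lt_mul_of_pos_left (hcon R0) hR0⟩
  rw [EX_const] at hlt
  linarith

end Vale.Agent.P063
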