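import Vale.Agent.P063.Sym
import Vale.Agent.P063.Param
import Vale.Agent.P063.Sample

/-!
# The influence bound
-/

set_option linter.unusedSectionVars false

namespace Vale.Agent.P063

open Finset

variable {n r m : ℕ}

/-- The coins of level `j` in `S`. -/
def level (S : Finset (Edge n r × Fin m)) (j : Fin m) : Finset (Edge n r × Fin m) :=
  S.filter fun c => c.2 = j

/-- The sets that are light on every level. -/
noncomputable def regular (K : ℝ) : Finset (Finset (Edge n r × Fin m)) :=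
  univ.filter fun S => ∀ j : Fin m, ((level S j).card : ℝ) ≤ beta ^ (4 * (j : ℕ)) * K

lemma image_fst_move (σ : Equiv.Perm (Fin n)) (S : Finset (Edge n r × Fin m)) :
    ((moveSet σ S).image Prod.fst).card = (S.image Prod.fst).card := by
  have e : (moveSet σ S).image Prod.fst = (S.image Prod.fst).image (relabel σ) := by
    rw [moveSet, map_eq_image, image_image, image_image]
    rfl
  rw [e]
  refine card_image_of_injective _ ?_
  intro a b h
  exact Subtype.ext (map_injective σ.toEmbedding (congrArg Subtype.val h))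

lemma level_move (σ : Equiv.Perm (Fin n)) (S : Finset (Edge n r × Fin m)) (j : Fin m) :
    (level (moveSet σ S) j).card = (level S j).card := by
  rw [level, level, moveSet, filter_map, card_map]
  rfl

lemma tail_le (F : (Edge n r × Fin m → Bool) → ℝ) {I K : ℝ} (hK : 0 < K) (hI : 0 ≤ I)
    (hlev : ∀ j : Fin m, ∑ e, infl F (e, j) ≤ (1 / 2) ^ (j : ℕ) * I) :
    ∑ S ∈ univ.filter (fun S => S ∉ regular K), coef F S ^ 2 ≤ 4 * I / K := by
  have h1 : ∀ j : Fin m, ∑ S, coef F S ^ 2 * ((level S j).card : ℝ) = ∑ e, infl F (e, j) := by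
    intro j
    simp only [infl_eq, sum_filter]
    rw [sum_comm]
    refine sum_congr rfl fun S _ => ?_
    rw [← sum_filter, sum_const, nsmul_eq_mul, mul_comm]
    congr 2
    refine card_bij (fun c _ => c.1) ?_ ?_ ?_
    · rintro ⟨e, j'⟩ hc
      simp only [level, mem_filter] at hc
      obtain ⟨hc, rfl⟩ := hc
      simpa using hc
    · rintro ⟨e, a⟩ ha ⟨e', b⟩ hb h
      simp only [level, mem_filter] at ha hb
      simp only at h
      rw [h, ha.2, hb.2]
    · intro e he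
      exact ⟨(e, j), by simpa [level] using he, rfl⟩
  have h2 : ∀ S ∈ univ.filter (fun S => S ∉ regular K), coef F S ^ 2 ≤
      ∑ j : Fin m, coef F S ^ 2 * ((level S j).card : ℝ) / (beta ^ (4 * (j : ℕ)) * K) := by
    intro S hS
    simp only [regular, mem_filter, mem_univ, true_and, not_forall, not_le] at hS
    obtain ⟨j, hj⟩ := hS
    refine le_trans ?_ (single_le_sum (fun i _ => ?_) (mem_univ j))
    · have := beta_pos
      rw [le_div_iff₀ (by positivity)]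
      exact mul_le_mul_of_nonneg_left hj.le (sq_nonneg _)
    · have := beta_pos
      positivity
  calc ∑ S ∈ univ.filter (fun S => S ∉ regular K), coef F S ^ 2
      ≤ ∑ S, ∑ j : Fin m, coef F S ^ 2 * ((level S j).card : ℝ) / (beta ^ (4 * (j : ℕ)) * K) :=
        (sum_le_sum h2).trans (sum_le_sum_of_subset_of_nonneg (subset_univ _) fun S _ _ =>
          sum_nonneg fun j _ => by have := beta_pos; positivity)
    _ = ∑ j : Fin m, (∑ e, infl F (e, j)) / (beta ^ (4 * (j : ℕ)) * K) := by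
        rw [sum_comm]
        simp only [← sum_div, h1]
    _ ≤ ∑ j : Fin m, beta ^ (4 * (j : ℕ)) * (I / K) := by
        refine sum_le_sum fun j _ => ?_
        have := beta_pos
        rw [div_le_iff₀ (by positivity)]
        refine (hlev j).trans (le_of_eq ?_)
        rw [← beta_pow_eight, ← pow_mul]
        field_simp
        ring
    _ ≤ 4 * I / K := by
        rw [← sum_mul, mul_div_assoc]
        exact mul_le_mul_of_nonneg_right (sum_beta_four_le m) (by positivity)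

lemma regular_card_le {K : ℝ} (hK : 0 ≤ K) {S : Finset (Edge n r × Fin m)}
    (hS : S ∈ regular K) : (S.card : ℝ) ≤ 4 * K := by
  simp only [regular, mem_filter, mem_univ, true_and] at hS
  have e : S.card = ∑ j : Fin m, (level S j).card :=
    card_eq_sum_card_fiberwise fun _ _ => mem_univ _
  rw [e, Nat.cast_sum]
  refine (sum_le_sum fun j _ => hS j).trans ?_
  rw [← sum_mul]
  exact mul_le_mul_of_nonneg_right (sum_beta_four_le m) hK

lemma regular_card_le' {K u w : ℝ} (hu : 0 ≤ u) (hw : 0 ≤ w) (hwK : w ^ 4 = K)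
    {S : Finset (Edge n r × Fin m)} (hS : S ∈ regular K)
    (he : ((S.image Prod.fst).card : ℝ) ≤ 2 * u ^ 4) : (S.card : ℝ) ≤ 26 * u ^ 3 * w := by
  simp only [regular, mem_filter, mem_univ, true_and] at hS
  have e : S.card = ∑ j : Fin m, (level S j).card :=
    card_eq_sum_card_fiberwise fun _ _ => mem_univ _
  have hj : ∀ j : Fin m, ((level S j).card : ℝ) ≤ 2 * u ^ 3 * w * beta ^ (j : ℕ) := by
    intro j
    have hb := beta_pos
    refine le_of_pow_le_pow_left₀ (n := 4) (by norm_num) (by positivity) ?_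
    have h1 : ((level S j).card : ℝ) ≤ (S.image Prod.fst).card := by
      have : (level S j).card ≤ (S.image Prod.fst).card :=
        card_le_card_of_injOn Prod.fst (fun c hc => mem_image_of_mem _ (mem_filter.mp hc).1)
          fun a ha b hb h => Prod.ext h ((mem_filter.mp ha).2.trans (mem_filter.mp hb).2.symm)
      exact_mod_cast this
    calc ((level S j).card : ℝ) ^ 4 = ((level S j).card : ℝ) ^ 3 * (level S j).card := by ring
      _ ≤ (2 * u ^ 4) ^ 3 * (beta ^ (4 * (j : ℕ)) * K) :=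
          mul_le_mul (pow_le_pow_left₀ (Nat.cast_nonneg _) (h1.trans he) 3) (hS j)
            (Nat.cast_nonneg _) (by positivity)
      _ ≤ (2 * u ^ 3 * w * beta ^ (j : ℕ)) ^ 4 := by
          rw [← hwK, mul_pow (2 * u ^ 3 * w), ← pow_mul beta, mul_comm (j : ℕ) 4]
          nlinarith [show 0 ≤ u ^ 12 * w ^ 4 * beta ^ (4 * (j : ℕ)) by positivity]
  rw [e, Nat.cast_sum]
  refine (sum_le_sum fun j _ => hj j).trans ?_
  rw [← mul_sum]
  calc 2 * u ^ 3 * w * ∑ j : Fin m, beta ^ (j : ℕ) ≤ 2 * u ^ 3 * w * 13 :=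
        mul_le_mul_of_nonneg_left (sum_beta_le m) (by positivity)
    _ = 26 * u ^ 3 * w := by ring

/-- The sets of one band. -/
noncomputable def band (K : ℝ) (i : ℕ) : Finset (Finset (Edge n r × Fin m)) :=
  (regular K).filter fun S => S.Nonempty ∧ Nat.log 2 (S.image Prod.fst).card = i

lemma band_move (K : ℝ) (i : ℕ) (σ : Equiv.Perm (Fin n)) (S : Finset (Edge n r × Fin m)) :
    moveSet σ S ∈ band K i ↔ S ∈ band K i := by
  simp only [band, regular, mem_filter, mem_univ, true_and, level_move, image_fst_move]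
  simp [moveSet]

lemma trace_mass_le
    {F : (Edge n r × Fin m → Bool) → ℝ} (hF : ∀ x, F x = 1 ∨ F x = -1)
    (hsym : ∀ (σ : Equiv.Perm (Fin n)) x, F (fun c => x (relabel σ c.1, c.2)) = F x)
    (hn : 0 < n) (hL : 1 ≤ Real.log n) (hbig : 64 * (r : ℝ) ^ 2 * Real.log n ^ 4 ≤ n)
    {K : ℝ} (hK0 : 0 ≤ K) (hKL : K ≤ Real.log n ^ 2) (i k : ℕ)
    (hkS : ∀ S ∈ band (n := n) (r := r) (m := m) K i, S.card ≤ k)
    (R : Finset (Edge n r)) {b : ℝ} {S : Finset (Edge n r × Fin m)} (hSB : S ∈ band K i)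
    (hv : b / 8 ≤ ((((S.image Prod.fst) ∩ R).biUnion fun e => e.1).card : ℝ)) :
    mass F (band K i) (R ×ˢ univ) (S ∩ R ×ˢ univ) ≤
      2 ^ k * Real.exp (-(Real.log n * b / 16)) := by
  have hverts : vertsOf (S ∩ R ×ˢ univ) =
      ((S.image Prod.fst) ∩ R).biUnion fun e => e.1 := by
    rw [vertsOf]
    congr 1
    ext e
    simp
  have h1 : (vertsOf (S ∩ R ×ˢ univ)).card ≤ S.card * r :=
    (card_biUnion_le_card_mul _ _ _ fun e _ => e.2.le).trans (Nat.mul_le_mul_right r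
      (card_image_le.trans (card_le_card inter_subset_left)))
  have h2 : ((vertsOf (S ∩ R ×ˢ univ)).card : ℝ) ≤ 4 * Real.log n ^ 2 * r := by
    have h3 : ((vertsOf (S ∩ R ×ˢ univ)).card : ℝ) ≤ (S.card : ℝ) * r := by exact_mod_cast h1
    refine h3.trans (mul_le_mul_of_nonneg_right ?_ (Nat.cast_nonneg r))
    have h4 := regular_card_le hK0 (mem_filter.mp hSB).1
    linarith
  have hv4 : 4 * ((vertsOf (S ∩ R ×ˢ univ)).card * (vertsOf (S ∩ R ×ˢ univ)).card) ≤ n := by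
    have : (4:ℝ) * (((vertsOf (S ∩ R ×ˢ univ)).card : ℝ) * (vertsOf (S ∩ R ×ˢ univ)).card) ≤
        (n:ℝ) := by
      refine le_trans ?_ hbig
      have h0 : 0 ≤ ((vertsOf (S ∩ R ×ˢ univ)).card : ℝ) := Nat.cast_nonneg _
      nlinarith [mul_le_mul h2 h2 h0 (h0.trans h2)]
    exact_mod_cast this
  refine (mass_le_sym hF hsym _ (fun σ S => band_move K i σ S) _ _ k hkS hn hv4).trans ?_
  refine mul_le_mul_of_nonneg_left (Real.exp_le_exp.mpr ?_) (by positivity)
  rw [hverts]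
  nlinarith

lemma coins_arith {r k : ℕ} {u w b E0 : ℝ} (hu : 0 < u) (hu4 : u ^ 4 = E0) (hb : 0 ≤ b)
    (hw : 0 ≤ w) (hk : (k : ℝ) ≤ 26 * u ^ 3 * w) :
    768 * (r : ℝ) ^ 2 * (b / E0 * k) ≤ 20000 * (r : ℝ) ^ 2 * b * w / u := by
  subst hu4
  calc 768 * (r:ℝ) ^ 2 * (b / u ^ 4 * k) ≤ 768 * (r:ℝ) ^ 2 * (b / u ^ 4 * (26 * u ^ 3 * w)) :=
        mul_le_mul_of_nonneg_left (mul_le_mul_of_nonneg_left hk (by positivity)) (by positivity)
    _ = 19968 * ((r:ℝ) ^ 2 * b * w) / u := by field_simp; ring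
    _ ≤ 20000 * ((r:ℝ) ^ 2 * b * w) / u := by
        refine div_le_div_of_nonneg_right ?_ hu.le
        exact mul_le_mul_of_nonneg_right (by norm_num) (by positivity)
    _ = 20000 * (r:ℝ) ^ 2 * b * w / u := by ring

lemma off_err_le (d : ℕ) {L X : ℝ} (hL : 0 < L) (hX : X ≤ L ^ 2) :
    Real.sqrt ((3 ^ d * Real.sqrt (((3:ℝ) ^ d * L ^ 8) ^ 2)⁻¹ + 1 / L ^ 8) * X) ≤ 2 / L ^ 3 := by
  rw [Real.sqrt_inv, Real.sqrt_sq (by positivity)]
  rw [show (3:ℝ) ^ d * ((3:ℝ) ^ d * L ^ 8)⁻¹ = 1 / L ^ 8 by field_simp]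
  rw [Real.sqrt_le_left (by positivity)]
  calc (1 / L ^ 8 + 1 / L ^ 8) * X ≤ (1 / L ^ 8 + 1 / L ^ 8) * L ^ 2 :=
        mul_le_mul_of_nonneg_left hX (by positivity)
    _ = 2 / L ^ 6 := by field_simp; ring
    _ ≤ (2 / L ^ 3) ^ 2 := by
        rw [div_pow, ← pow_mul]
        exact div_le_div_of_nonneg_right (by norm_num) (by positivity)

lemma list_err_le (d k : ℕ) {L b : ℝ} (hL : 1 ≤ L) (hb : 1 ≤ b)
    (h : (d : ℝ) * (1 + 3 * d + 24 * Real.log L) + 3 * k ≤ b * L / 32) :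
    Real.sqrt (Real.sqrt ((L ^ 8 / ((3 ^ d * L ^ 8) ^ 2)⁻¹ + 1) ^ d * 9 ^ k *
      (2 ^ k * Real.exp (-(L * b / 16))))) ≤ 6 * 128 ^ 3 / L ^ 3 := by
  refine le_trans ?_ (exp_neg_small hL hb)
  rw [Real.sqrt_le_left (Real.exp_pos _).le, Real.sqrt_le_left (by positivity),
    ← Real.exp_nat_mul, ← Real.exp_nat_mul]
  refine (exp_half_bound d k hL h).trans (le_of_eq ?_)
  congr 1
  push_cast
  ring

theorem band_mass_le (hr : 2 ≤ r) {ζ : ℝ} (hζ1 : ζ ≤ 1)
    (hζ : ∀ L w u b : ℝ, 1 ≤ L → 0 ≤ w → w ^ 4 ≤ ζ * L ^ ((r : ℝ) / ((r : ℝ) - 1)) → 1 ≤ u →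
      u ^ 4 ≤ 4 * w ^ 4 → 1 ≤ b → b ^ r = u ^ 4 → ∀ k d : ℕ, (k : ℝ) ≤ 26 * u ^ 3 * w →
        (d : ℝ) ≤ 20000 * r ^ 2 * b * w / u →
          d * (1 + 3 * d + 24 * Real.log L) + 3 * k ≤ b * L / 32)
    {F : (Edge n r × Fin m → Bool) → ℝ} (hF : ∀ x, F x = 1 ∨ F x = -1)
    (hsym : ∀ (σ : Equiv.Perm (Fin n)) x, F (fun c => x (relabel σ c.1, c.2)) = F x)
    (hn : 0 < n) (hL : 1 ≤ Real.log n) (hbig : 64 * (r : ℝ) ^ 2 * Real.log n ^ 4 ≤ n)
    {K : ℝ} (hK0 : 0 ≤ K) (hK : K ≤ ζ * Real.log n ^ ((r : ℝ) / ((r : ℝ) - 1)))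
    (htot : ∑ c, infl F c ≤ Real.log n ^ 2) (i : ℕ) :
    ∑ S ∈ band K i, coef F S ^ 2 ≤
      768 * (r : ℝ) ^ 2 * (2 + 6 * 128 ^ 3) / Real.log n ^ 3 := by
  classical
  set L := Real.log n with hLdef
  rcases (band (n := n) (r := r) (m := m) K i).eq_empty_or_nonempty with hemp | ⟨S0, hS0⟩
  · rw [hemp, sum_empty]; positivity
  have hL0 : 0 < L := by linarith
  have hr0 : (0:ℝ) < r := by exact_mod_cast (show 0 < r by omega)
  have hreg : ∀ S ∈ band (n := n) (r := r) (m := m) K i, S ∈ regular K := fun S hS =>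
    (mem_filter.mp hS).1
  have hlo : ∀ S ∈ band (n := n) (r := r) (m := m) K i,
      (2:ℝ) ^ i ≤ ((S.image Prod.fst).card : ℝ) ∧
        ((S.image Prod.fst).card : ℝ) ≤ 2 * 2 ^ i := by
    intro S hS
    obtain ⟨-, hne, hlog⟩ := mem_filter.mp hS
    have hc : (S.image Prod.fst).card ≠ 0 := (card_pos.mpr (hne.image _)).ne'
    constructor
    · have := Nat.pow_log_le_self 2 hc
      rw [hlog] at this
      exact_mod_cast this
    · have := (Nat.lt_pow_succ_log_self (b := 2) (by norm_num) (S.image Prod.fst).card).le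
      rw [hlog, pow_succ, mul_comm] at this
      exact_mod_cast this
  set u : ℝ := ((2:ℝ) ^ i) ^ (1 / 4 : ℝ) with hudef
  set w : ℝ := K ^ (1 / 4 : ℝ) with hwdef
  set b : ℝ := ((2:ℝ) ^ i) ^ (1 / (r:ℝ)) with hbdef
  have h2i : (1:ℝ) ≤ 2 ^ i := one_le_pow₀ (by norm_num)
  have hu4 : u ^ 4 = (2:ℝ) ^ i := by
    rw [hudef, ← Real.rpow_natCast, ← Real.rpow_mul (by positivity)]; norm_num
  have hw4 : w ^ 4 = K := by
    rw [hwdef, ← Real.rpow_natCast, ← Real.rpow_mul hK0]; norm_num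
  have hbr : b ^ r = (2:ℝ) ^ i := by
    rw [hbdef, ← Real.rpow_natCast, ← Real.rpow_mul (by positivity), one_div,
      inv_mul_cancel₀ hr0.ne', Real.rpow_one]
  have hu1 : 1 ≤ u := Real.one_le_rpow h2i (by norm_num)
  have hb1 : 1 ≤ b := Real.one_le_rpow h2i (by positivity)
  have hbE : b ≤ (2:ℝ) ^ i := hbr ▸ le_self_pow₀ hb1 (by omega)
  have hw0 : 0 ≤ w := Real.rpow_nonneg hK0 _
  have huw : u ^ 4 ≤ 4 * w ^ 4 := by
    rw [hu4, hw4]
    refine ((hlo S0 hS0).1).trans ?_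
    refine le_trans ?_ (regular_card_le hK0 (hreg S0 hS0))
    exact_mod_cast card_image_le
  set k : ℕ := ⌊26 * u ^ 3 * w⌋₊ with hkdef
  set d : ℕ := ⌊20000 * (r:ℝ) ^ 2 * b * w / u⌋₊ with hddef
  have hk26 : (k:ℝ) ≤ 26 * u ^ 3 * w := Nat.floor_le (by positivity)
  have hd20 : (d:ℝ) ≤ 20000 * (r:ℝ) ^ 2 * b * w / u := Nat.floor_le (by positivity)
  have hpar := hζ L w u b hL hw0 (hw4 ▸ hK) hu1 huw hb1 (hbr.trans hu4.symm) k d hk26 hd20
  have hkS : ∀ S ∈ band (n := n) (r := r) (m := m) K i, S.card ≤ k := fun S hS =>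
    Nat.le_floor (regular_card_le' (by linarith) hw0 hw4 (hreg S hS) (hu4 ▸ (hlo S hS).2))
  obtain ⟨R, hR⟩ := exists_sample (fun e : Edge n r => e.1) r (by omega) (fun e => e.2)
    Subtype.val_injective hb1 hbE hbr.le (band (n := n) (r := r) (m := m) K i)
    (fun S => coef F S ^ 2) (fun S _ => sq_nonneg _) k
    (fun S hS => (hlo S hS).1) (fun S hS => (hlo S hS).2) hkS
  set G := (band (n := n) (r := r) (m := m) K i).filter (fun S =>
    b / 8 ≤ ((((S.image Prod.fst) ∩ R).biUnion fun e => e.1).card : ℝ) ∧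
      ((S.filter (fun c => c.1 ∈ R)).card : ℝ) ≤ 768 * r ^ 2 * (b / 2 ^ i * k)) with hGdef
  set J : Finset (Edge n r × Fin m) := R ×ˢ univ with hJdef
  set UU := G.image (fun S => S ∩ J) with hUUdef
  have hinter : ∀ S : Finset (Edge n r × Fin m), S ∩ J = S.filter (fun c => c.1 ∈ R) := by
    intro S; ext c; simp [hJdef]
  have hUU : ∀ U ∈ UU, U ⊆ J ∧ U.card ≤ d := by
    intro U hU
    obtain ⟨S, hS, rfl⟩ := mem_image.mp hU
    refine ⟨inter_subset_right, Nat.le_floor ?_⟩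
    rw [hinter]
    exact (mem_filter.mp hS).2.2.trans (coins_arith (by linarith) hu4 (by linarith) hw0 hk26)
  have hKL : K ≤ L ^ 2 := hK.trans <|
    (mul_le_of_le_one_left (Real.rpow_nonneg hL0.le _) hζ1).trans (rpow_expo_le_sq hr hL)
  have hMx : ∀ U ∈ UU, mass F (band K i) J U ≤ 2 ^ k * Real.exp (-(L * b / 16)) := by
    intro U hU
    obtain ⟨S, hS, rfl⟩ := mem_image.mp hU
    obtain ⟨hSB, hv, -⟩ := mem_filter.mp hS
    exact trace_mass_le hF hsym hn hL hbig hK0 hKL i k hkS R hSB hv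
  have hb := band_le hF J (band (n := n) (r := r) (m := m) K i) UU k d
    (θ := ((3 ^ d * L ^ 8) ^ 2)⁻¹) (Λ := L ^ 8) (by positivity) (by positivity) hkS hUU hMx
  have h1 := off_err_le d hL0 htot
  have h2 := list_err_le d k hL hb1 hpar
  have hG : ∑ S ∈ G, coef F S ^ 2 ≤ ∑ U ∈ UU, mass F (band K i) J U := by
    rw [← sum_fiberwise_of_maps_to (g := fun S => S ∩ J) (fun S hS => mem_image_of_mem _ hS)]
    refine sum_le_sum fun U _ => sum_le_sum_of_subset_of_nonneg ?_ fun _ _ _ => sq_nonneg _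
    exact filter_subset_filter _ (filter_subset _ _)
  have hfin : (∑ S ∈ band K i, coef F S ^ 2) / (768 * (r:ℝ) ^ 2) ≤ (2 + 6 * 128 ^ 3) / L ^ 3 := by
    rw [add_div]
    exact (hR.trans hG).trans (hb.trans (add_le_add h1 h2))
  rw [div_le_iff₀ (by positivity)] at hfin
  refine hfin.trans_eq ?_
  ring

lemma mass_nonempty_eq (F : (Edge n r × Fin m → Bool) → ℝ) :
    ∑ S ∈ univ.filter (fun S : Finset (Edge n r × Fin m) => S.Nonempty), coef F S ^ 2 =
      avg (fun x => F x ^ 2) - avg F ^ 2 := by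
  rw [parseval, ← sum_filter_add_sum_filter_not univ
    (fun S : Finset (Edge n r × Fin m) => S.Nonempty)]
  have : univ.filter (fun S : Finset (Edge n r × Fin m) => ¬S.Nonempty) = {∅} := by
    ext S; simp [not_nonempty_iff_eq_empty]
  rw [this, sum_singleton]
  have e : coef F ∅ = avg F := by simp [coef, chi]
  rw [e]; ring

lemma var_le_sum_infl (F : (Edge n r × Fin m → Bool) → ℝ) :
    avg (fun x => F x ^ 2) - avg F ^ 2 ≤ ∑ c, infl F c := by
  rw [← mass_nonempty_eq]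
  simp only [infl_eq, sum_filter]
  rw [sum_comm]
  refine sum_le_sum fun S _ => ?_
  rw [← sum_filter]
  split_ifs with h
  · obtain ⟨c, hc⟩ := h
    exact single_le_sum (f := fun _ => coef F S ^ 2) (fun _ _ => sq_nonneg _)
      (mem_filter.mpr ⟨mem_univ c, hc⟩)
  · exact sum_nonneg fun _ _ => sq_nonneg _

/-- The whole nonconstant mass is the tail plus the bands. -/
lemma var_le_bands (hr : 2 ≤ r) {ζ : ℝ} (hζ1 : ζ ≤ 1)
    (hζ : ∀ L w u b : ℝ, 1 ≤ L → 0 ≤ w → w ^ 4 ≤ ζ * L ^ ((r : ℝ) / ((r : ℝ) - 1)) → 1 ≤ u →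
      u ^ 4 ≤ 4 * w ^ 4 → 1 ≤ b → b ^ r = u ^ 4 → ∀ k d : ℕ, (k : ℝ) ≤ 26 * u ^ 3 * w →
        (d : ℝ) ≤ 20000 * r ^ 2 * b * w / u →
          d * (1 + 3 * d + 24 * Real.log L) + 3 * k ≤ b * L / 32)
    {F : (Edge n r × Fin m → Bool) → ℝ} (hF : ∀ x, F x = 1 ∨ F x = -1)
    (hsym : ∀ (σ : Equiv.Perm (Fin n)) x, F (fun c => x (relabel σ c.1, c.2)) = F x)
    (hn : 0 < n) (hL : 1 ≤ Real.log n) (hbig : 64 * (r : ℝ) ^ 2 * Real.log n ^ 4 ≤ n)
    {K : ℝ} (hK0 : 0 < K) (hK : K ≤ ζ * Real.log n ^ ((r : ℝ) / ((r : ℝ) - 1)))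
    (htot : ∑ c, infl F c ≤ Real.log n ^ 2) {I : ℝ} (hI : 0 ≤ I)
    (hlev : ∀ j : Fin m, ∑ e, infl F (e, j) ≤ (1 / 2) ^ (j : ℕ) * I) :
    avg (fun x => F x ^ 2) - avg F ^ 2 ≤
      4 * I / K + 5 * (768 * (r : ℝ) ^ 2 * (2 + 6 * 128 ^ 3)) / Real.log n := by
  rw [← mass_nonempty_eq]
  set L := Real.log n with hLdef
  set C1 := 768 * (r : ℝ) ^ 2 * (2 + 6 * 128 ^ 3) with hC1
  have hC0 : 0 ≤ C1 := by positivity
  have hKL : 4 * K ≤ 4 * L ^ 2 := by
    have h1 := mul_le_of_le_one_left (Real.rpow_nonneg (show 0 ≤ L by linarith)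
      ((r : ℝ) / ((r : ℝ) - 1))) hζ1
    exact mul_le_mul_of_nonneg_left (hK.trans (h1.trans (rpow_expo_le_sq hr hL))) (by norm_num)
  set N := Nat.log 2 ⌊4 * L ^ 2⌋₊ + 1 with hN
  have hNle : (N : ℝ) ≤ 5 * L ^ 2 := by
    have h1 : (Nat.log 2 ⌊4 * L ^ 2⌋₊ : ℝ) ≤ (⌊4 * L ^ 2⌋₊ : ℝ) := by
      exact_mod_cast Nat.log_le_self 2 _
    have h2 : (⌊4 * L ^ 2⌋₊ : ℝ) ≤ 4 * L ^ 2 := Nat.floor_le (by positivity)
    rw [hN]; push_cast
    nlinarith
  have hcover : univ.filter (fun S : Finset (Edge n r × Fin m) => S.Nonempty) ⊆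
      univ.filter (fun S => S ∉ regular K) ∪ (range N).biUnion (band K) := by
    intro S hS
    have hne := (mem_filter.mp hS).2
    by_cases hreg : S ∈ regular K
    · refine mem_union_right _ (mem_biUnion.mpr ⟨Nat.log 2 (S.image Prod.fst).card, ?_,
        mem_filter.mpr ⟨hreg, hne, rfl⟩⟩)
      rw [mem_range, hN, Nat.lt_succ_iff]
      refine Nat.log_mono_right (card_image_le.trans (Nat.le_floor ?_))
      exact (regular_card_le hK0.le hreg).trans hKL
    · exact mem_union_left _ (mem_filter.mpr ⟨mem_univ _, hreg⟩)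
  refine (sum_le_sum_of_subset_of_nonneg hcover fun _ _ _ => sq_nonneg _).trans ?_
  refine le_trans ?_ (add_le_add (tail_le F hK0 hI hlev)
    (show ∑ i ∈ range N, ∑ S ∈ band (n := n) (r := r) (m := m) K i, coef F S ^ 2 ≤ 5 * C1 / L from ?_))
  · refine le_trans ?_ (add_le_add le_rfl (sum_biUnion_le' _ _ fun _ => sq_nonneg _))
    rw [← sum_union_inter (s₁ := univ.filter fun S => S ∉ regular K)]
    exact le_add_of_nonneg_right (sum_nonneg fun _ _ => sq_nonneg _)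
  · refine (sum_le_sum fun i _ => band_mass_le hr hζ1 hζ hF hsym hn hL hbig hK0.le hK
      htot i).trans ?_
    rw [sum_const, card_range, nsmul_eq_mul, ← hLdef, ← hC1]
    calc (N : ℝ) * (C1 / L ^ 3) ≤ 5 * L ^ 2 * (C1 / L ^ 3) :=
          mul_le_mul_of_nonneg_right hNle (by positivity)
      _ = 5 * C1 / L := by field_simp

/-- The influence bound for a symmetrical function of the coins. -/
theorem influence_bound {r : ℕ} (hr : 2 ≤ r) {δ : ℝ} (hδ : 0 < δ) :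
    ∃ c : ℝ, 0 < c ∧ ∀ n : ℕ, r ≤ n → ∀ m : ℕ, ∀ F : (Edge n r × Fin m → Bool) → ℝ,
      (∀ x, F x = 1 ∨ F x = -1) →
      (∀ (σ : Equiv.Perm (Fin n)) x, F (fun e => x (relabel σ e.1, e.2)) = F x) →
      δ ≤ avg (fun x => F x ^ 2) - avg F ^ 2 →
      ∀ I : ℝ, (∀ j : Fin m, ∑ e, infl F (e, j) ≤ (1 / 2) ^ (j : ℕ) * I) →
        c * Real.log n ^ ((r : ℝ) / ((r : ℝ) - 1)) ≤ I := by
  obtain ⟨ζ, hζ0, hζ1, hζ⟩ := exists_param hr
  set C1 : ℝ := 768 * (r : ℝ) ^ 2 * (2 + 6 * 128 ^ 3) with hC1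
  have hC1' : 0 < C1 := by
    have : (0:ℝ) < r := by exact_mod_cast (show 0 < r by omega)
    positivity
  set L0 : ℝ := 1 + 120 * 64 * (r : ℝ) ^ 2 + 12 * C1 / δ with hL0def
  have hL0 : 1 ≤ L0 := by
    have : 0 ≤ 12 * C1 / δ := by positivity
    nlinarith
  set η : ℝ := min (min (ζ * δ / 16) (δ / (2 * L0 ^ 2))) (1 / 2) with hη
  have hη0 : 0 < η := by positivity
  refine ⟨η, hη0, ?_⟩
  intro n hn m F hF hsym hvar I hlev
  set L := Real.log n with hLdef
  set q : ℝ := (r : ℝ) / ((r : ℝ) - 1) with hq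
  have hn1 : (1:ℝ) ≤ n := by exact_mod_cast (show 1 ≤ n by omega)
  have hL00 : 0 ≤ L := Real.log_nonneg hn1
  have hq0 : 0 ≤ q := by
    have : (2:ℝ) ≤ r := by exact_mod_cast hr
    exact div_nonneg (by linarith) (by linarith)
  have htot : ∑ c, infl F c ≤ (∑ j : Fin m, ((1:ℝ) / 2) ^ (j : ℕ)) * I := by
    rw [Fintype.sum_prod_type_right, sum_mul]
    exact sum_le_sum fun j _ => hlev j
  have hpoinc : δ ≤ ∑ c, infl F c := hvar.trans (var_le_sum_infl F)
  have hI : δ / 2 ≤ I := by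
    have h1 := hpoinc.trans htot
    have h2 := sum_half_le m
    have h3 : 0 ≤ ∑ j : Fin m, ((1:ℝ) / 2) ^ (j : ℕ) := sum_nonneg fun _ _ => by positivity
    rcases le_or_gt 0 I with hI | hI <;> nlinarith
  by_cases hsmall : L < L0
  · refine le_trans ?_ hI
    have h1 : L ^ q ≤ L0 ^ 2 :=
      (Real.rpow_le_rpow hL00 hsmall.le hq0).trans (rpow_expo_le_sq hr hL0)
    calc η * L ^ q ≤ δ / (2 * L0 ^ 2) * L0 ^ 2 :=
          mul_le_mul ((min_le_left _ _).trans (min_le_right _ _)) h1 (Real.rpow_nonneg hL00 _)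
            (by positivity)
      _ = δ / 2 := by field_simp
  rw [not_lt] at hsmall
  by_contra hcon
  rw [not_le] at hcon
  have hL1 : 1 ≤ L := hL0.trans hsmall
  have hLpos : 0 < L := by linarith
  set K := 16 * η * L ^ q / δ with hKdef
  have hK : K ≤ ζ * L ^ q := by
    rw [hKdef, div_le_iff₀ hδ]
    have : η ≤ ζ * δ / 16 := (min_le_left _ _).trans (min_le_left _ _)
    have : 0 ≤ L ^ q := Real.rpow_nonneg hL00 _
    nlinarith
  have hK0 : 0 < K := by positivity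
  have hI0 : 0 ≤ I := by linarith
  have htot2 : ∑ c, infl F c ≤ L ^ 2 := by
    refine htot.trans ((mul_le_mul_of_nonneg_right (sum_half_le m) hI0).trans ?_)
    have : η ≤ 1 / 2 := min_le_right _ _
    have := rpow_expo_le_sq hr hL1
    have : 0 ≤ L ^ q := Real.rpow_nonneg hL00 _
    nlinarith
  have hbig : 64 * (r : ℝ) ^ 2 * L ^ 4 ≤ n := by
    have h := Real.pow_div_factorial_le_exp L hL00 5
    rw [hLdef, Real.exp_log (by linarith), ← hLdef] at h
    refine le_trans ?_ h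
    rw [le_div_iff₀ (by norm_num [Nat.factorial])]
    have h5 : 120 * 64 * (r:ℝ) ^ 2 ≤ L := by
      have : 0 ≤ 12 * C1 / δ := by positivity
      linarith
    calc 64 * (r : ℝ) ^ 2 * L ^ 4 * (Nat.factorial 5 : ℝ) = 120 * 64 * (r:ℝ) ^ 2 * L ^ 4 := by
          norm_num [Nat.factorial]; ring
      _ ≤ L * L ^ 4 := mul_le_mul_of_nonneg_right h5 (by positivity)
      _ = L ^ 5 := by ring
  have hb := hvar.trans
    (var_le_bands hr hζ1 hζ hF hsym (by omega) hL1 hbig hK0 hK htot2 hI0 hlev)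
  rw [← hC1, ← hLdef] at hb
  have h1 : 4 * I / K < δ / 4 := by
    rw [div_lt_iff₀ hK0, hKdef]
    have : δ / 4 * (16 * η * L ^ q / δ) = 4 * (η * L ^ q) := by field_simp; ring
    rw [this]
    linarith only [hcon]
  have h2 : 5 * C1 / L ≤ δ / 2 := by
    have h12 : 12 * C1 / δ ≤ L := by
      have : 0 ≤ 120 * 64 * (r:ℝ) ^ 2 := by positivity
      linarith only [this, hsmall, hL0def]
    rw [div_le_iff₀ hδ] at h12
    rw [div_le_iff₀ hLpos]
    linarith only [h12, hC1']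
  linarith only [hb, h1, h2, hδ]

end Vale.Agent.P063
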