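import Vale.Agent.P063.Band
import Vale.Agent.P063.Defs

/-!
# Symmetry under vertex permutations
-/

set_option linter.unusedSectionVars false

namespace Vale.Agent.P063

open Finset

variable {n r m : ℕ}

/-- The vertices touched by a set of coins. -/
def vertsOf (S : Finset (Edge n r × Fin m)) : Finset (Fin n) :=
  (S.image Prod.fst).biUnion fun e => e.1

/-- The action of a vertex permutation on coins. -/
def coinEquiv (σ : Equiv.Perm (Fin n)) : Edge n r × Fin m ≃ Edge n r × Fin m :=
  Equiv.prodCongr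
    { toFun := relabel σ
      invFun := relabel σ.symm
      left_inv := fun e => Subtype.ext <| by
        ext v; simp [relabel]
      right_inv := fun e => Subtype.ext <| by
        ext v; simp [relabel] }
    (Equiv.refl _)

/-- The image of a set of coins under a vertex permutation. -/
def moveSet (σ : Equiv.Perm (Fin n)) (S : Finset (Edge n r × Fin m)) : Finset (Edge n r × Fin m) :=
  S.map (coinEquiv σ).toEmbedding

lemma vertsOf_move (σ : Equiv.Perm (Fin n)) (S : Finset (Edge n r × Fin m)) :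
    vertsOf (moveSet σ S) = (vertsOf S).map σ.toEmbedding := by
  ext v
  simp only [vertsOf, moveSet, mem_biUnion, mem_image, mem_map, Equiv.toEmbedding_apply]
  constructor
  · rintro ⟨e, ⟨c, ⟨c', hc', rfl⟩, rfl⟩, hv⟩
    simp only [coinEquiv, Equiv.prodCongr_apply, Prod.map_fst, Equiv.coe_fn_mk, relabel,
      mem_map, Equiv.toEmbedding_apply] at hv
    obtain ⟨w, hw, rfl⟩ := hv
    exact ⟨w, ⟨_, ⟨c', hc', rfl⟩, hw⟩, rfl⟩
  · rintro ⟨w, ⟨e, ⟨c, hc, rfl⟩, hw⟩, rfl⟩
    exact ⟨_, ⟨_, ⟨c, hc, rfl⟩, rfl⟩, by simp [coinEquiv, relabel, hw]⟩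

lemma coef_move {F : (Edge n r × Fin m → Bool) → ℝ}
    (hsym : ∀ (σ : Equiv.Perm (Fin n)) x, F (fun c => x (relabel σ c.1, c.2)) = F x)
    (σ : Equiv.Perm (Fin n)) (S : Finset (Edge n r × Fin m)) :
    coef F (moveSet σ S) = coef F S := by
  unfold coef avg
  congr 1
  refine Fintype.sum_equiv ((coinEquiv σ).symm.arrowCongr (Equiv.refl Bool)) _ _ fun x => ?_
  have e1 : ((coinEquiv σ).symm.arrowCongr (Equiv.refl Bool)) x =
      fun c => x (relabel σ c.1, c.2) := by
    funext c
    simp [coinEquiv, Prod.map]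
  simp only [e1]
  congr 1
  · exact (hsym σ x).symm
  · simp only [chi, moveSet, prod_map, Equiv.toEmbedding_apply]
    exact prod_congr rfl fun c _ => by simp [coinEquiv, Prod.map]

lemma exists_perm {V W : Finset (Fin n)} (h : V.card = W.card) :
    ∃ σ : Equiv.Perm (Fin n), V.map σ.toEmbedding = W := by
  refine ⟨(Finset.equivOfCardEq h).extendSubtype, ?_⟩
  refine eq_of_subset_of_card_le ?_ (by simp [h])
  intro w hw
  obtain ⟨v, hv, rfl⟩ := mem_map.mp hw
  exact Equiv.extendSubtype_mem _ v hv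

lemma choose_sq_ge {n v : ℕ} (h : 4 * (v * v) ≤ n) : n ^ v ≤ n.choose v ^ 2 := by
  rcases Nat.eq_zero_or_pos v with hv | hv
  · subst hv; simp
  have h1 : (n + 1 - v) ^ v ≤ v.factorial * n.choose v := by
    rw [← Nat.descFactorial_eq_factorial_mul_choose]
    exact Nat.pow_sub_le_descFactorial n v
  have h2 : v.factorial ≤ v ^ v := Nat.factorial_le_pow v
  have h3 : n ≤ 2 * (n + 1 - v) := by
    have : v ≤ v * v := Nat.le_mul_self v
    omega
  have h4 : n ^ v ≤ (2 * v) ^ v * n.choose v := by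
    calc n ^ v ≤ (2 * (n + 1 - v)) ^ v := Nat.pow_le_pow_left h3 v
      _ = 2 ^ v * (n + 1 - v) ^ v := mul_pow _ _ _
      _ ≤ 2 ^ v * (v ^ v * n.choose v) :=
          Nat.mul_le_mul_left _ (h1.trans (Nat.mul_le_mul_right _ h2))
      _ = _ := by rw [mul_pow]; ring
  have h5 : n ^ v * n ^ v ≤ n ^ v * n.choose v ^ 2 := by
    calc n ^ v * n ^ v ≤ ((2 * v) ^ v * n.choose v) * ((2 * v) ^ v * n.choose v) :=
          Nat.mul_le_mul h4 h4
      _ = (4 * (v * v)) ^ v * n.choose v ^ 2 := by
          rw [show 4 * (v * v) = (2 * v) * (2 * v) by ring, mul_pow (2 * v) (2 * v)]; ring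
      _ ≤ n ^ v * n.choose v ^ 2 := Nat.mul_le_mul_right _ (Nat.pow_le_pow_left h v)
  exact Nat.le_of_mul_le_mul_left h5 (Nat.pow_pos (by nlinarith))

theorem mass_le_sym {F : (Edge n r × Fin m → Bool) → ℝ} (hF : ∀ x, F x = 1 ∨ F x = -1)
    (hsym : ∀ (σ : Equiv.Perm (Fin n)) x, F (fun c => x (relabel σ c.1, c.2)) = F x)
    (B : Finset (Finset (Edge n r × Fin m))) (hB : ∀ σ, ∀ S, moveSet σ S ∈ B ↔ S ∈ B)
    (J U : Finset (Edge n r × Fin m)) (k : ℕ) (hk : ∀ S ∈ B, S.card ≤ k) (hn : 0 < n)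
    (hv : 4 * ((vertsOf U).card * (vertsOf U).card) ≤ n) :
    mass F B J U ≤ 2 ^ k * Real.exp (-(Real.log n * (vertsOf U).card / 2)) := by
  set v := (vertsOf U).card with hvdef
  set O := (univ : Finset (Equiv.Perm (Fin n))).image fun σ => moveSet σ U with hO
  have h1 := card_mul_mass_le hF J U B k O hk fun V hV => by
    obtain ⟨σ, -, rfl⟩ := mem_image.mp hV
    refine (sum_equiv (coinEquiv σ).finsetCongr ?_ ?_).symm
    · intro S
      simp only [mem_filter, Equiv.finsetCongr_apply]
      exact and_congr (hB σ S).symm (by rw [moveSet, map_subset_map])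
    · intro S _
      simp only [Equiv.finsetCongr_apply]
      exact congrArg (fun t => t ^ 2) (coef_move hsym σ S).symm
  have h2 : n.choose v ≤ O.card := by
    calc n.choose v = ((univ : Finset (Fin n)).powersetCard v).card := by simp
      _ ≤ (O.image vertsOf).card := card_le_card fun W hW => by
          obtain ⟨σ, hσ⟩ := exists_perm (V := vertsOf U) (W := W) (mem_powersetCard.mp hW).2.symm
          exact mem_image.mpr ⟨moveSet σ U, mem_image.mpr ⟨σ, mem_univ _, rfl⟩,
            (vertsOf_move σ U).trans hσ⟩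
      _ ≤ O.card := card_image_le
  have h3 : Real.exp (Real.log n * v / 2) ≤ (n.choose v : ℝ) := by
    refine le_of_pow_le_pow_left₀ two_ne_zero (by positivity) ?_
    rw [← Real.exp_nat_mul, show ((2:ℕ):ℝ) * (Real.log n * v / 2) = (v:ℝ) * Real.log n by
      push_cast; ring, Real.exp_nat_mul, Real.exp_log (by exact_mod_cast hn)]
    exact_mod_cast choose_sq_ge hv
  have hm : 0 ≤ mass F B J U := sum_nonneg fun _ _ => sq_nonneg _
  have h4 : Real.exp (Real.log n * v / 2) * mass F B J U ≤ 2 ^ k :=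
    le_trans (mul_le_mul_of_nonneg_right (h3.trans (by exact_mod_cast h2)) hm) h1
  rw [Real.exp_neg, ← div_eq_mul_inv, le_div_iff₀ (Real.exp_pos _), mul_comm]
  exact h4

end Vale.Agent.P063
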